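import Vale.Agent.P120.Spec
import Mathlib.MeasureTheory.Covering.BesicovitchVectorSpace
import Mathlib.MeasureTheory.Measure.Decomposition.RadonNikodym
import Mathlib.MeasureTheory.Measure.Lebesgue.EqHaar

/-!
# P120: a measure comparable to Lebesgue measure on balls has a density pinched between constants
-/

open MeasureTheory Metric Filter Topology Set
open scoped ENNReal NNReal

namespace Vale.Agent.P120

variable {n : ℕ}

/-- An inequality on closed balls passes to all sets. -/
lemma le_smul_of_closedBall {μ ν : Measure (Sp n)} [SFinite ν] [ν.OuterRegular] {K : ℝ≥0∞}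
    (hK : K ≠ ⊤) (h : ∀ x r, 0 < r → μ (closedBall x r) ≤ K * ν (closedBall x r)) : μ ≤ K • ν := by
  refine Measure.le_iff.2 fun s _ => ?_
  rw [Measure.smul_apply, smul_eq_mul]
  refine ENNReal.le_of_forall_pos_le_add fun ε hε _ => ?_
  obtain ⟨t, r, htc, -, hr, hst, hsum⟩ := Besicovitch.exists_closedBall_covering_tsum_measure_le ν
    (ε := (ε : ℝ≥0∞) / (K + 1)) (ENNReal.div_pos (by simpa using hε.ne') (by simp [hK])).ne'
    (fun _ => Ioi (0 : ℝ)) s
    (fun x _ δ hδ => ⟨δ / 2, half_pos hδ, half_pos hδ, half_lt_self hδ⟩)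
  calc μ s ≤ μ (⋃ x ∈ t, closedBall x (r x)) := measure_mono hst
    _ ≤ ∑' x : t, μ (closedBall x (r x)) := measure_biUnion_le μ htc _
    _ ≤ ∑' x : t, K * ν (closedBall x (r x)) := ENNReal.tsum_le_tsum fun x => h _ _ (hr x x.2)
    _ = K * ∑' x : t, ν (closedBall x (r x)) := ENNReal.tsum_mul_left
    _ ≤ K * (ν s + ε / (K + 1)) := by gcongr
    _ ≤ K * ν s + ε := by
      rw [mul_add]
      gcongr
      refine le_trans (mul_le_mul' (le_self_add (b := 1)) le_rfl) ?_
      rw [mul_comm]
      exact le_of_eq (ENNReal.div_mul_cancel (by simp) (by simp [hK]))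

lemma closedBall_volume (x : Sp n) {r : ℝ} (hr : 0 ≤ r) :
    volume.real (closedBall x r) = r ^ n * volume.real (closedBall (0 : Sp n) 1) := by
  simpa using Measure.addHaar_real_closedBall' (μ := (volume : Measure (Sp n))) x hr

lemma closedBall_volume_pos : 0 < volume.real (closedBall (0 : Sp n) 1) :=
  ENNReal.toReal_pos (measure_closedBall_pos volume 0 one_pos).ne'
    (isCompact_closedBall _ _).measure_lt_top.ne

/-- **The density.** -/
theorem exists_density {ν : Measure (Sp n)} [ν.Regular] {a b : ℝ} (ha : 0 < a) (hab : 0 ≤ b)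
    (h : ∀ x r, 0 < r → a * r ^ n ≤ ν.real (closedBall x r) ∧ ν.real (closedBall x r) ≤ b * r ^ n) :
    ∃ (f : Sp n → ℝ) (c C : ℝ), Measurable f ∧ 0 < c ∧ (∀ x, c ≤ f x ∧ f x ≤ C) ∧
      ν = volume.withDensity fun x => ENNReal.ofReal (f x) := by
  set ω := volume.real (closedBall (0 : Sp n) 1) with hω
  have hω0 : 0 < ω := closedBall_volume_pos
  have hfin : ∀ (m : Measure (Sp n)) [IsFiniteMeasureOnCompacts m] x r, m (closedBall x r) ≠ ⊤ :=
    fun m _ x r => (isCompact_closedBall x r).measure_lt_top.ne
  have hball : ∀ (m₁ m₂ : Measure (Sp n)) [IsFiniteMeasureOnCompacts m₁]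
      [IsFiniteMeasureOnCompacts m₂] (t : ℝ) (x : Sp n) (r : ℝ), 0 ≤ t →
      m₁.real (closedBall x r) ≤ t * m₂.real (closedBall x r) →
      m₁ (closedBall x r) ≤ ENNReal.ofReal t * m₂ (closedBall x r) := fun m₁ m₂ _ _ t x r ht hle => by
    rw [← ofReal_measureReal (hfin m₁ x r), ← ofReal_measureReal (hfin m₂ x r),
      ← ENNReal.ofReal_mul ht]
    exact ENNReal.ofReal_le_ofReal hle
  have hup : ν ≤ ENNReal.ofReal (b / ω) • (volume : Measure (Sp n)) :=
    le_smul_of_closedBall ENNReal.ofReal_ne_top fun x r hr => hball ν volume _ x r (by positivity)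
      ((h x r hr).2.trans_eq (by rw [closedBall_volume x hr.le, ← hω]; field_simp))
  have hlow : (volume : Measure (Sp n)) ≤ ENNReal.ofReal (ω / a) • ν :=
    le_smul_of_closedBall ENNReal.ofReal_ne_top fun x r hr => hball volume ν _ x r (by positivity)
      (le_of_eq_of_le (by rw [closedBall_volume x hr.le, ← hω]; field_simp)
        (mul_le_mul_of_nonneg_left (h x r hr).1 (show (0:ℝ) ≤ ω / a by positivity)))
  have hac : ν ≪ (volume : Measure (Sp n)) := (Measure.absolutelyContinuous_of_le_smul hup)
  set g := ν.rnDeriv volume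
  have hg : Measurable g := Measure.measurable_rnDeriv _ _
  have hgν : (volume : Measure (Sp n)).withDensity g = ν := Measure.withDensity_rnDeriv_eq _ _ hac
  have hgup : g ≤ᵐ[volume] fun _ => ENNReal.ofReal (b / ω) :=
    ae_le_of_forall_setLIntegral_le_of_sigmaFinite hg fun s hs _ => by
      rw [← withDensity_apply _ hs, hgν, setLIntegral_const]
      exact (hup s).trans_eq (by rw [Measure.smul_apply, smul_eq_mul])
  have hglow : (fun _ => ENNReal.ofReal (a / ω)) ≤ᵐ[volume] g :=
    ae_le_of_forall_setLIntegral_le_of_sigmaFinite measurable_const fun s hs _ => by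
      rw [← withDensity_apply g hs, hgν, setLIntegral_const]
      calc ENNReal.ofReal (a / ω) * volume s
          ≤ ENNReal.ofReal (a / ω) * (ENNReal.ofReal (ω / a) * ν s) :=
            mul_le_mul' le_rfl ((hlow s).trans_eq (by rw [Measure.smul_apply, smul_eq_mul]))
        _ = ν s := by
            rw [← mul_assoc, ← ENNReal.ofReal_mul (by positivity),
              show a / ω * (ω / a) = 1 by field_simp, ENNReal.ofReal_one, one_mul]
  refine ⟨fun x => max (a / ω) (min (b / ω + a / ω) (g x).toReal), a / ω, b / ω + a / ω, ?_,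
    by positivity, fun x => ⟨le_max_left _ _, max_le (by
      have : 0 ≤ b / ω := by positivity
      linarith) (min_le_left _ _)⟩, ?_⟩
  · exact measurable_const.max (measurable_const.min hg.ennreal_toReal)
  · refine hgν.symm.trans (withDensity_congr_ae ?_)
    filter_upwards [hgup, hglow] with x h1 h2
    have hne : g x ≠ ⊤ := ne_top_of_le_ne_top ENNReal.ofReal_ne_top h1
    have h3 : (g x).toReal ≤ b / ω := ENNReal.toReal_le_of_le_ofReal (by positivity) h1
    have h4 : a / ω ≤ (g x).toReal := (ENNReal.ofReal_le_iff_le_toReal hne).1 h2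
    have : 0 < a / ω := by positivity
    rw [min_eq_right (by linarith), max_eq_right h4, ENNReal.ofReal_toReal hne]

end Vale.Agent.P120
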