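import Vale.Agent.P120.Improve.Limit.Weak

/-!
# P120: double integrals pass to the limit
-/

open MeasureTheory Metric Filter Topology Set
open scoped ENNReal NNReal

namespace Vale.Agent.P120.Blow

variable {n d : ℕ} {C₀ : ℝ} (B : Blow n d C₀) {U : Ultrafilter ℕ} {ν : Measure (Sp n)}
  [IsFiniteMeasureOnCompacts ν]

/-- **A continuous function of compact support in two variables.** -/
theorem weak_double (hν : ∀ (g : Sp n → ℝ) (A : ℝ), Continuous g → 1 ≤ A →
      (∀ x, A ≤ ‖x‖ → g x = 0) → Tendsto (fun k => B.avg k A g) U (𝓝 (∫ x, g x ∂ν)))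
    (hU : (U : Filter ℕ) ≤ atTop) {F : Sp d × Sp d → ℝ} (hF : Continuous F) {A : ℝ} (hA : 1 ≤ A)
    (hFA : ∀ y z, A ≤ ‖y‖ ∨ A ≤ ‖z‖ → F (y, z) = 0) :
    Tendsto (fun k => ∫ y, ∫ z, F (y, z) ∂B.m k ∂B.m k) U
      (𝓝 (∫ a, ∫ b, F (tEmb a, tEmb b) ∂ν ∂ν)) := by
  have hcs : HasCompactSupport F := HasCompactSupport.intro
    ((isCompact_closedBall (0 : Sp d) A).prod (isCompact_closedBall (0 : Sp d) A)) fun q hq => by
    refine hFA q.1 q.2 ?_
    simp only [Set.mem_prod, mem_closedBall_zero_iff, not_and_or, not_le] at hq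
    exact hq.imp le_of_lt le_of_lt
  have huc := hcs.uniformContinuous_of_continuous hF
  -- the limit of the sections
  set g : Sp d → ℝ := fun y => ∫ b, F (y, tEmb b) ∂ν with hg
  have hsec : ∀ y, Continuous fun z => F (y, z) := fun y => hF.comp (by fun_prop)
  have hgi : ∀ y, Integrable (fun b : Sp n => F (y, tEmb b)) ν := fun y =>
    ((hsec y).comp (continuous_tEmb B.le)).integrable_of_hasCompactSupport
      (HasCompactSupport.intro (isCompact_closedBall 0 A) fun b hb => hFA _ _ (Or.inr (by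
        rw [norm_tEmb B.le]; exact (not_le.1 (mem_closedBall_zero_iff.not.1 hb)).le)))
  set W := ν.real (closedBall (0 : Sp n) A) with hW
  have hW0 : 0 ≤ W := measureReal_nonneg
  -- moduli
  have hgmod : ∀ η > 0, ∃ δ > 0, ∀ y y' : Sp d, dist y y' < δ → |g y - g y'| ≤ η * W := by
    intro η hη
    obtain ⟨δ, hδ, h⟩ := Metric.uniformContinuous_iff.1 huc η hη
    refine ⟨δ, hδ, fun y y' hy => ?_⟩
    rw [hg, ← integral_sub (hgi y) (hgi y'),
      ← setIntegral_eq_integral_of_forall_compl_eq_zero (s := closedBall (0 : Sp n) A) fun b hb => by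
        have : A ≤ ‖tEmb (d := d) b‖ := by
          rw [norm_tEmb B.le]; exact (not_le.1 (mem_closedBall_zero_iff.not.1 hb)).le
        rw [hFA _ _ (Or.inr this), hFA _ _ (Or.inr this), sub_zero], ← Real.norm_eq_abs]
    refine norm_setIntegral_le_of_norm_le_const (isCompact_closedBall _ _).measure_lt_top fun b _ => ?_
    exact (h (by simpa [Prod.dist_eq] using hy)).le
  have hgc : Continuous g := by
    rw [Metric.continuous_iff]
    intro y ε hε
    obtain ⟨δ, hδ, h⟩ := hgmod (ε / (W + 1)) (by positivity)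
    refine ⟨δ, hδ, fun y' hy => (h y' y hy).trans_lt ?_⟩
    rw [div_mul_eq_mul_div, div_lt_iff₀ (by positivity)]
    nlinarith
  have hgA : ∀ y, A ≤ ‖y‖ → g y = 0 := fun y hy => by simp [hg, hFA y _ (Or.inl hy)]
  have hlim := B.weak_ambient hν hU hgc hA hgA
  refine hlim.congr_dist ?_
  rw [Metric.tendsto_nhds]
  intro ε hε
  set M := C₀ * (2 * A) ^ n
  have hM : 0 ≤ M := mul_nonneg B.C₀_pos.le (by positivity)
  set η := ε / ((M + 1) * (M + W + 2)) with hη
  have hη0 : 0 < η := by positivity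
  obtain ⟨δ, hδ, hFδ⟩ := Metric.uniformContinuous_iff.1 huc η hη0
  obtain ⟨δ', hδ', hgδ⟩ := hgmod η hη0
  obtain ⟨t, -, ht, htc⟩ := finite_cover_balls_of_compact (isCompact_closedBall (0 : Sp d) (2 * A))
    (lt_min hδ hδ')
  have hpt : ∀ y : Sp d,
      Tendsto (fun k => ∫ z, F (y, z) ∂B.m k) U (𝓝 (g y)) := fun y =>
    B.weak_ambient hν hU (hsec y) hA fun z hz => hFA y z (Or.inr hz)
  filter_upwards [(Filter.eventually_all_finite ht).2 fun c _ =>
    (hpt c).eventually (Metric.closedBall_mem_nhds _ hη0)] with k hk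
  have := B.lf k
  rw [Real.dist_eq, sub_zero, abs_of_nonneg dist_nonneg, Real.dist_eq]
  have hmass : (B.m k).real (ball 0 (2 * A)) ≤ M := B.mass_le k (by positivity)
  have hzi : ∀ y, Integrable (fun z => F (y, z)) (B.m k) := fun y =>
    (hsec y).integrable_of_hasCompactSupport (HasCompactSupport.intro (isCompact_closedBall 0 A)
      fun z hz => hFA _ _ (Or.inr (not_le.1 (mem_closedBall_zero_iff.not.1 hz)).le))
  have hunif : ∀ y, ‖y‖ < 2 * A → |g y - ∫ z, F (y, z) ∂B.m k| ≤ η * (M + W + 1) := by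
    intro y hy
    obtain ⟨c, hc, hyc⟩ := mem_iUnion₂.1 (htc (mem_closedBall_zero_iff.2 hy.le))
    rw [mem_ball] at hyc
    have h1 := hgδ y c (hyc.trans_le (min_le_right _ _))
    have h2 : |(∫ z, F (c, z) ∂B.m k) - g c| ≤ η := by
      rw [← Real.dist_eq]; exact hk c hc
    have h3 : |(∫ z, F (c, z) ∂B.m k) - ∫ z, F (y, z) ∂B.m k| ≤ η * M := by
      rw [← integral_sub (hzi c) (hzi y),
        ← setIntegral_eq_integral_of_forall_compl_eq_zero (s := ball (0 : Sp d) (2 * A)) fun z hz => by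
          have : A ≤ ‖z‖ := by rw [mem_ball_zero_iff, not_lt] at hz; linarith
          rw [hFA _ _ (Or.inr this), hFA _ _ (Or.inr this), sub_zero], ← Real.norm_eq_abs]
      refine (norm_setIntegral_le_of_norm_le_const ((B.reg k).fin _ _).lt_top fun z _ => ?_).trans
        (mul_le_mul_of_nonneg_left hmass hη0.le)
      refine (hFδ ?_).le
      simpa [Prod.dist_eq, dist_comm c y] using hyc.trans_le (min_le_left _ _)
    have t1 := abs_sub_le (g y) (g c) (∫ z, F (y, z) ∂B.m k)
    have t2 := abs_sub_le (g c) (∫ z, F (c, z) ∂B.m k) (∫ z, F (y, z) ∂B.m k)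
    rw [abs_sub_comm] at h2
    linarith
  have houter : Continuous fun y => ∫ z, F (y, z) ∂B.m k := by
    rw [Metric.continuous_iff]
    intro y ε' hε'
    obtain ⟨δ₁, hδ₁, hF₁⟩ := Metric.uniformContinuous_iff.1 huc (ε' / (M + 1)) (by positivity)
    refine ⟨δ₁, hδ₁, fun y' hy => ?_⟩
    rw [Real.dist_eq, ← integral_sub (hzi y') (hzi y),
      ← setIntegral_eq_integral_of_forall_compl_eq_zero (s := ball (0 : Sp d) (2 * A)) fun z hz => by
        have : A ≤ ‖z‖ := by rw [mem_ball_zero_iff, not_lt] at hz; linarith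
        rw [hFA _ _ (Or.inr this), hFA _ _ (Or.inr this), sub_zero], ← Real.norm_eq_abs]
    refine ((norm_setIntegral_le_of_norm_le_const ((B.reg k).fin _ _).lt_top fun z _ =>
      (hF₁ (by simpa [Prod.dist_eq] using hy : dist (y', z) (y, z) < δ₁)).le).trans
        (mul_le_mul_of_nonneg_left hmass (by positivity))).trans_lt ?_
    rw [div_mul_eq_mul_div, div_lt_iff₀ (by positivity)]
    nlinarith
  have hzero : ∀ y : Sp d, A ≤ ‖y‖ → ∫ z, F (y, z) ∂B.m k = 0 := fun y hy => by
    simp [hFA y _ (Or.inl hy)]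
  have hgk : Integrable g (B.m k) := hgc.integrable_of_hasCompactSupport
    (HasCompactSupport.intro (isCompact_closedBall 0 A) fun y hy =>
      hgA y (not_le.1 (mem_closedBall_zero_iff.not.1 hy)).le)
  have hok : Integrable (fun y => ∫ z, F (y, z) ∂B.m k) (B.m k) :=
    houter.integrable_of_hasCompactSupport (HasCompactSupport.intro (isCompact_closedBall 0 A)
      fun y hy => hzero y (not_le.1 (mem_closedBall_zero_iff.not.1 hy)).le)
  rw [← integral_sub hgk hok,
    ← setIntegral_eq_integral_of_forall_compl_eq_zero (s := ball (0 : Sp d) (2 * A)) fun y hy => by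
      have : A ≤ ‖y‖ := by rw [mem_ball_zero_iff, not_lt] at hy; linarith
      rw [hgA y this, hzero y this, sub_zero], ← Real.norm_eq_abs]
  refine ((norm_setIntegral_le_of_norm_le_const ((B.reg k).fin _ _).lt_top fun y hy =>
    hunif y (mem_ball_zero_iff.1 hy)).trans
      (mul_le_mul_of_nonneg_left hmass (by positivity))).trans_lt ?_
  rw [hη, div_mul_eq_mul_div, div_mul_eq_mul_div, div_lt_iff₀ (by positivity)]
  nlinarith [mul_nonneg hε.le hW0, mul_nonneg hε.le hM]

end Vale.Agent.P120.Blow
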