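import Vale.Agent.P120.Improve.Thin

/-!
# P120: the plane of the first coordinates
-/

open MeasureTheory Metric Filter Topology
open scoped ENNReal NNReal RealInnerProductSpace

namespace Vale.Agent.P120

variable {n d : ℕ}

@[simp] lemma tPart_tEmb (h : n ≤ d) (x : Sp n) : tPart h (tEmb (d := d) x) = x := by
  ext i; simp [tPart, tEmb]

@[simp] lemma nPart_tEmb (x : Sp n) : nPart n (tEmb (d := d) x) = 0 := by
  ext i; by_cases hi : (i : ℕ) < n <;> simp [nPart, tEmb, hi]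

lemma tEmb_tPart (h : n ≤ d) (y : Sp d) : tEmb (tPart h y) = y - nPart n y := by
  ext i; by_cases hi : (i : ℕ) < n <;> simp [tPart, tEmb, nPart, hi]

lemma tEmb_sub (x y : Sp n) : tEmb (d := d) (x - y) = tEmb x - tEmb y := by
  ext i; by_cases hi : (i : ℕ) < n <;> simp [tEmb, hi]

lemma tEmb_add (x y : Sp n) : tEmb (d := d) (x + y) = tEmb x + tEmb y := by
  ext i; by_cases hi : (i : ℕ) < n <;> simp [tEmb, hi]

lemma tEmb_smul (a : ℝ) (x : Sp n) : tEmb (d := d) (a • x) = a • tEmb x := by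
  ext i; by_cases hi : (i : ℕ) < n <;> simp [tEmb, hi]

@[simp] lemma tEmb_zero : tEmb (d := d) (0 : Sp n) = 0 := by ext i; simp [tEmb]

lemma norm_tEmb (h : n ≤ d) (x : Sp n) : ‖tEmb (d := d) x‖ = ‖x‖ := by
  have := norm_sq_split h (tEmb (d := d) x)
  rw [tPart_tEmb, nPart_tEmb, norm_zero] at this
  exact (pow_left_inj₀ (norm_nonneg _) (norm_nonneg _) two_ne_zero).1 (by linarith)

/-- The plane of the first coordinates, as a linear isometry. -/
noncomputable def tLin (h : n ≤ d) : Sp n →ₗᵢ[ℝ] Sp d where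
  toFun := tEmb
  map_add' := tEmb_add
  map_smul' := tEmb_smul
  norm_map' := norm_tEmb h

lemma inner_tEmb (h : n ≤ d) (x y : Sp n) : ⟪tEmb (d := d) x, tEmb y⟫ = ⟪x, y⟫ :=
  (tLin h).inner_map_map x y

lemma continuous_tEmb (h : n ≤ d) : Continuous (tEmb : Sp n → Sp d) := (tLin h).continuous

lemma lipschitz_tEmb (h : n ≤ d) : LipschitzWith 1 (tEmb : Sp n → Sp d) := (tLin h).isometry.lipschitz

lemma rieszKernel_tEmb (h : n ≤ d) (x : Sp n) :
    rieszKernel n (tEmb (d := d) x) = tEmb (rieszKernel n x) := by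
  rw [rieszKernel, rieszKernel, norm_tEmb h, tEmb_smul]

lemma norm_tPart_ge (h : n ≤ d) (y : Sp d) : ‖y‖ - ‖nPart n y‖ ≤ ‖tPart h y‖ := by
  linarith [norm_le_parts h y]

lemma dist_tEmb_tPart (h : n ≤ d) (y : Sp d) : dist y (tEmb (tPart h y)) = ‖nPart n y‖ := by
  rw [dist_eq_norm, tEmb_tPart, sub_sub_cancel]

end Vale.Agent.P120
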