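import Vale.Agent.P120.Pairing

/-!
# P120: the pairing is close to a double integral of a continuous function

The kernel is cut near the diagonal and the second variable at a large radius.
-/

open MeasureTheory Metric Set Filter Topology
open scoped RealInnerProductSpace ENNReal NNReal

namespace Vale.Agent.P120.Trunc

open Pairing

variable {n d : ℕ}

/-- The kernel cut off inside radius `2 ε`. -/
noncomputable def kTrunc (n : ℕ) (ε : ℝ) (w : Sp d) : Sp d :=
  (max 0 (min 1 (‖w‖ / ε - 1)) / max ‖w‖ ε ^ (n + 1)) • w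

/-- One up to radius `ρ`, zero beyond `2 ρ`. -/
noncomputable def chi (ρ : ℝ) (z : Sp d) : ℝ := max 0 (min 1 (2 - ‖z‖ / ρ))

/-- The continuous integrand. -/
noncomputable def tInt (n : ℕ) (ε ρ : ℝ) (φ : Sp d → Sp d) (q : Sp d × Sp d) : ℝ :=
  chi ρ q.2 * ⟪φ q.1, kTrunc n ε (q.1 - q.2)⟫

/-- The cut double integral. -/
noncomputable def tPair (n : ℕ) (μ : Measure (Sp d)) (ε ρ : ℝ) (φ : Sp d → Sp d) : ℝ :=
  ∫ y, ∫ z, tInt n ε ρ φ (y, z) ∂μ ∂μ

lemma continuous_kTrunc {ε : ℝ} (hε : 0 < ε) : Continuous (kTrunc n ε : Sp d → Sp d) := by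
  unfold kTrunc
  exact (Continuous.div (by fun_prop) (by fun_prop)
    fun w => (pow_pos (lt_max_of_lt_right hε) _).ne').smul continuous_id

lemma continuous_chi (ρ : ℝ) : Continuous (chi ρ : Sp d → ℝ) := by unfold chi; fun_prop

lemma chi_nonneg (ρ : ℝ) (z : Sp d) : 0 ≤ chi ρ z := le_max_left _ _

lemma chi_le_one (ρ : ℝ) (z : Sp d) : chi ρ z ≤ 1 := max_le zero_le_one (min_le_left _ _)

lemma chi_eq_one {ρ : ℝ} (hρ : 0 < ρ) {z : Sp d} (hz : ‖z‖ ≤ ρ) : chi ρ z = 1 := by
  have : ‖z‖ / ρ ≤ 1 := by rwa [div_le_one hρ]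
  rw [chi, min_eq_left (by linarith), max_eq_right zero_le_one]

lemma chi_eq_zero {ρ : ℝ} (hρ : 0 < ρ) {z : Sp d} (hz : 2 * ρ ≤ ‖z‖) : chi ρ z = 0 := by
  have : 2 ≤ ‖z‖ / ρ := by rwa [le_div_iff₀ hρ]
  rw [chi, max_eq_left ((min_le_right _ _).trans (by linarith))]

lemma continuous_tInt {ε ρ : ℝ} (hε : 0 < ε) {φ : Sp d → Sp d} (hφ : Continuous φ) :
    Continuous (tInt n ε ρ φ) := by
  have := continuous_kTrunc (n := n) (d := d) hε
  have := continuous_chi (d := d) ρ
  unfold tInt; fun_prop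

lemma kTrunc_neg (ε : ℝ) (w : Sp d) : kTrunc n ε (-w) = -kTrunc n ε w := by simp [kTrunc]

lemma kTrunc_eq {ε : ℝ} (hε : 0 < ε) (w : Sp d) :
    kTrunc n ε w = max 0 (min 1 (‖w‖ / ε - 1)) • rieszKernel n w := by
  rcases le_or_gt ‖w‖ ε with h | h
  · have : ‖w‖ / ε ≤ 1 := by rwa [div_le_one hε]
    rw [kTrunc, max_eq_left ((min_le_right _ _).trans (by linarith)), zero_div, zero_smul, zero_smul]
  · rw [kTrunc, max_eq_left h.le, rieszKernel, smul_smul, div_eq_mul_inv]

lemma kTrunc_of_le {ε : ℝ} (hε : 0 < ε) {w : Sp d} (h : 2 * ε ≤ ‖w‖) :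
    kTrunc n ε w = rieszKernel n w := by
  have : 2 ≤ ‖w‖ / ε := by rwa [le_div_iff₀ hε]
  rw [kTrunc_eq hε, min_eq_left (by linarith), max_eq_right zero_le_one, one_smul]

lemma norm_kernel_sub_kTrunc {ε : ℝ} (hε : 0 < ε) (w : Sp d) :
    ‖rieszKernel n w - kTrunc n ε w‖ ≤ if ‖w‖ < 2 * ε then ‖rieszKernel n w‖ else 0 := by
  split
  · rw [kTrunc_eq hε]
    set t := max 0 (min 1 (‖w‖ / ε - 1))
    have h1 : 0 ≤ t := le_max_left _ _
    have h2 : t ≤ 1 := max_le zero_le_one (min_le_left _ _)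
    have e : rieszKernel n w - t • rieszKernel n w = (1 - t) • rieszKernel n w := by module
    rw [e, norm_smul, Real.norm_eq_abs, abs_of_nonneg (by linarith)]
    exact mul_le_of_le_one_left (norm_nonneg _) (by linarith)
  · rw [kTrunc_of_le hε (not_lt.1 ‹_›), sub_self, norm_zero]

lemma abs_inner_kTrunc_le {L : ℝ≥0} {φ : Sp d → Sp d} (hφ : LipschitzWith L φ) {ε : ℝ} (hε : 0 < ε)
    (y z : Sp d) :
    |H n φ (y, z) - ⟪φ y - φ z, kTrunc n ε (y - z)⟫| ≤
      (ball y (2 * ε)).indicator (fun z => (L : ℝ) * (‖y - z‖ / ‖y - z‖ ^ n)) z := by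
  rw [H, ← inner_sub_right]
  refine (abs_real_inner_le_norm _ _).trans ?_
  refine (mul_le_mul_of_nonneg_left (norm_kernel_sub_kTrunc hε (y - z)) (norm_nonneg _)).trans ?_
  by_cases h : ‖y - z‖ < 2 * ε
  · rw [if_pos h, indicator_of_mem (by rwa [mem_ball, dist_comm, dist_eq_norm])]
    rw [div_eq_mul_inv, ← mul_assoc]
    exact mul_le_mul (hφ.norm_sub_le y z) (norm_kernel _) (norm_nonneg _) (by positivity)
  · rw [if_neg h, mul_zero]
    exact indicator_nonneg (fun z _ => by positivity) z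

variable {μ : Measure (Sp d)} [IsLocallyFiniteMeasure μ] {C₀ : ℝ}

/-- The diagonal: cutting the kernel costs `ε`. -/
lemma loc_sub_cut (hReg : Reg n C₀ μ) {G : ℝ} (hG : ∀ (x : Sp d) (R : ℝ), 0 < R →
      IntegrableOn (fun z => ‖x - z‖ / ‖x - z‖ ^ n) (ball x R) μ ∧
        ∫ z in ball x R, ‖x - z‖ / ‖x - z‖ ^ n ∂μ ≤ G * R)
    {L : ℝ≥0} {φ : Sp d → Sp d} (hφ : LipschitzWith L φ) {ρ ε : ℝ} (hρ : 0 < ρ) (hε : 0 < ε) :
    |2⁻¹ * loc n μ (ball 0 ρ) φ -
        ∫ y in ball 0 ρ, ∫ z in ball 0 ρ, ⟪φ y, kTrunc n ε (y - z)⟫ ∂μ ∂μ| ≤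
      L * G * ε * μ.real (ball 0 ρ) := by
  set B := ball (0 : Sp d) ρ
  have : IsFiniteMeasure (μ.restrict B) := isFiniteMeasure_restrict.2 (hReg.fin 0 ρ)
  set ν := (μ.restrict B).prod (μ.restrict B) with hν
  have hk := continuous_kTrunc (n := n) (d := d) hε
  have hc := hφ.continuous
  set g : Sp d × Sp d → ℝ := fun q => ⟪φ q.1, kTrunc n ε (q.1 - q.2)⟫ with hg
  have hgc : Continuous g := by rw [hg]; fun_prop
  obtain ⟨M, hM⟩ := ((isCompact_closedBall (0 : Sp d) ρ).prod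
    (isCompact_closedBall (0 : Sp d) ρ)).exists_bound_of_continuousOn hgc.continuousOn
  have hmem : ∀ᵐ q ∂ν, q ∈ B ×ˢ B := by
    rw [hν, Measure.prod_restrict]
    exact ae_restrict_mem (measurableSet_ball.prod measurableSet_ball)
  have hgi : Integrable g ν := Integrable.of_bound hgc.aestronglyMeasurable M
    (hmem.mono fun q hq => hM q ⟨ball_subset_closedBall hq.1, ball_subset_closedBall hq.2⟩)
  have hH : Integrable (H n φ) ν := by
    rw [hν, Measure.prod_restrict]; exact (near_ball hReg hG hφ 0 hρ).1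
  have hsum : ∀ q : Sp d × Sp d, g q + g q.swap = ⟪φ q.1 - φ q.2, kTrunc n ε (q.1 - q.2)⟫ := by
    intro q
    simp only [g, Prod.fst_swap, Prod.snd_swap]
    rw [inner_sub_left, ← neg_sub q.1 q.2, kTrunc_neg, inner_neg_right]
    ring
  have hgs : Integrable (fun q => g q.swap) ν := hgi.swap
  have e1 : ∫ y in B, ∫ z in B, g (y, z) ∂μ ∂μ = 2⁻¹ * ∫ q, (g q + g q.swap) ∂ν := by
    rw [integral_add hgi hgs, integral_prod_swap g, integral_prod g hgi]
    ring
  have e2 : loc n μ B φ = ∫ q, H n φ q ∂ν := (integral_prod (H n φ) hH).symm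
  change |2⁻¹ * loc n μ B φ - ∫ y in B, ∫ z in B, g (y, z) ∂μ ∂μ| ≤ _
  have hdiff : Integrable (fun q => H n φ q - (g q + g q.swap)) ν := hH.sub (hgi.add hgs)
  rw [e1, e2, ← mul_sub, ← integral_sub (f := H n φ) (g := fun q => g q + g q.swap) hH
    (hgi.add hgs), abs_mul, abs_of_pos (by positivity : (0:ℝ) < 2⁻¹), hν, integral_prod _ hdiff]
  have hpt : ∀ y, ‖∫ z in B, (H n φ (y, z) - (g (y, z) + g (y, z).swap)) ∂μ‖ ≤ 2 * (L * G * ε) := by
    intro y
    obtain ⟨hi, hle⟩ := hG y (2 * ε) (by positivity)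
    have hb : Integrable ((ball y (2 * ε)).indicator fun z => (L : ℝ) * (‖y - z‖ / ‖y - z‖ ^ n))
        μ := IntegrableOn.integrable_indicator (hi.const_mul _) measurableSet_ball
    refine (norm_integral_le_of_norm_le hb.integrableOn (Eventually.of_forall fun z => ?_)).trans ?_
    · rw [Real.norm_eq_abs, hsum]
      exact abs_inner_kTrunc_le hφ hε y z
    · refine (setIntegral_le_integral hb (Eventually.of_forall fun z =>
        indicator_nonneg (fun z _ => by positivity) z)).trans ?_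
      rw [integral_indicator measurableSet_ball, integral_const_mul]
      exact (mul_le_mul_of_nonneg_left hle L.coe_nonneg).trans_eq (by ring)
  refine (mul_le_mul_of_nonneg_left (norm_setIntegral_le_of_norm_le_const
    (hReg.fin 0 ρ).lt_top fun y _ => hpt y) (by norm_num)).trans_eq (by ring)

/-- **The pairing against the cut integral.** -/
theorem pair_sub_tPair (hReg : Reg n C₀ μ) {G₁ G₂ : ℝ} (hG₁ : ∀ (x : Sp d) (R : ℝ), 0 < R →
      IntegrableOn (fun z => ‖x - z‖ / ‖x - z‖ ^ n) (ball x R) μ ∧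
        ∫ z in ball x R, ‖x - z‖ / ‖x - z‖ ^ n ∂μ ≤ G₁ * R)
    (hG₂ : ∀ (x : Sp d) (R : ℝ), 0 < R →
      IntegrableOn (fun z => (‖x - z‖ ^ (n + 1))⁻¹) (ball x R)ᶜ μ ∧
        ∫ z in (ball x R)ᶜ, (‖x - z‖ ^ (n + 1))⁻¹ ∂μ ≤ G₂ / R)
    {L : ℝ≥0} {φ : Sp d → Sp d} (hφ : LipschitzWith L φ) {R ρ ε : ℝ} (hR : 0 < R)
    (hsupp : ∀ y, R ≤ dist y 0 → φ y = 0) (hmean : ∫ y, φ y ∂μ = 0) (hρ : 2 * R ≤ ρ) (hε : 0 < ε)
    (hεR : 2 * ε ≤ R) :
    |pair n μ 0 R φ - tPair n μ ε ρ φ| ≤
      L * G₁ * ε * μ.real (ball 0 ρ) + 2 * (kLip n * G₂ * (R / ρ) * ∫ y, ‖φ y‖ ∂μ) := by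
  have hρ0 : 0 < ρ := by linarith
  set B := ball (0 : Sp d) ρ with hB
  have hc := hφ.continuous
  obtain ⟨hint, -, hnorm⟩ := integrable_field hReg hc hsupp
  have hzero : ∀ y, ¬ ‖y‖ < R → φ y = 0 := fun y hy => hsupp y (by
    rw [dist_zero_right]; exact not_lt.1 hy)
  -- the far part of the cut integral
  set W := ∫ z in Bᶜ, chi ρ z • rieszKernel n (0 - z) ∂μ with hW
  have hk := measurable_kernel (n := n) (d := d)
  have hWi : IntegrableOn (fun z => chi ρ z • rieszKernel n (0 - z)) Bᶜ μ := by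
    have hS : μ (closedBall 0 (2 * ρ)) ≠ ⊤ := (isCompact_closedBall _ _).measure_lt_top.ne
    have mS : MeasurableSet (Bᶜ ∩ closedBall (0 : Sp d) (2 * ρ)) :=
      measurableSet_ball.compl.inter measurableSet_closedBall
    refine (Measure.integrableOn_of_bounded (M := (ρ ^ n)⁻¹) (ne_top_of_le_ne_top hS
      (measure_mono inter_subset_right)) ?_ ((ae_restrict_iff' mS).2 (Eventually.of_forall
        fun z hz => ?_))).of_forall_sdiff_eq_zero measurableSet_ball.compl fun z hz => ?_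
    · exact ((continuous_chi ρ).measurable.smul
        (hk.comp (measurable_const.sub measurable_id))).aestronglyMeasurable
    · have hz' := hz.1
      rw [hB, mem_compl_iff, mem_ball, not_lt, dist_zero_right] at hz'
      rw [norm_smul, Real.norm_eq_abs, abs_of_nonneg (chi_nonneg _ _)]
      refine (mul_le_of_le_one_left (norm_nonneg _) (chi_le_one _ _)).trans
        ((norm_kernel _).trans ?_)
      rw [zero_sub, norm_neg]
      gcongr
    · have : ¬ z ∈ closedBall (0 : Sp d) (2 * ρ) := fun h => hz.2 ⟨hz.1, h⟩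
      rw [mem_closedBall, not_le, dist_zero_right] at this
      rw [chi_eq_zero hρ0 this.le, zero_smul]
  set E : Sp d → ℝ := fun y =>
    ∫ z in Bᶜ, chi ρ z * ⟪φ y, rieszKernel n (y - z) - rieszKernel n (0 - z)⟫ ∂μ with hE
  have hball : ball (0 : Sp d) ρ ⊆ B := subset_rfl
  have hsec : ∀ y, Integrable (fun z => tInt n ε ρ φ (y, z)) μ := fun y =>
    ((continuous_tInt hε hc).comp (by fun_prop)).integrable_of_hasCompactSupport
      (HasCompactSupport.intro (isCompact_closedBall 0 (2 * ρ)) fun z hz => by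
        rw [mem_closedBall, not_le, dist_zero_right] at hz
        simp [tInt, chi_eq_zero hρ0 hz.le])
  have hEle : ∀ y, |E y| ≤ kLip n * G₂ * (R / ρ) * ‖φ y‖ := by
    intro y
    by_cases h : ‖y‖ < R
    · obtain ⟨hi, hle⟩ := far_point hG₂ measurableSet_ball hR hρ hball
        (c := (0 : Sp d)) (y := y) (by rwa [dist_zero_right])
      rw [← Real.norm_eq_abs, hE]
      refine (norm_integral_le_of_norm_le (hi.norm.const_mul ‖φ y‖)
        (Eventually.of_forall fun z => ?_)).trans ?_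
      · rw [norm_mul, Real.norm_eq_abs, Real.norm_eq_abs, abs_of_nonneg (chi_nonneg _ _)]
        exact (mul_le_of_le_one_left (abs_nonneg _) (chi_le_one _ _)).trans
          (abs_real_inner_le_norm _ _)
      · rw [integral_const_mul, mul_comm]
        exact mul_le_mul_of_nonneg_right hle (norm_nonneg _)
    · simp [hE, hzero y h]
  -- the inner integral
  have hfar : ∀ y, ∫ z in Bᶜ, tInt n ε ρ φ (y, z) ∂μ = E y + ⟪φ y, W⟫ := by
    intro y
    by_cases h : ‖y‖ < R
    · obtain ⟨hi, -⟩ := far_point hG₂ measurableSet_ball hR hρ hball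
        (c := (0 : Sp d)) (y := y) (by rwa [dist_zero_right])
      have h1 : IntegrableOn
          (fun z => chi ρ z * ⟪φ y, rieszKernel n (y - z) - rieszKernel n (0 - z)⟫) Bᶜ μ :=
        (hi.norm.const_mul ‖φ y‖).mono'
          ((continuous_chi ρ).measurable.mul (by fun_prop)).aestronglyMeasurable
          (Eventually.of_forall fun z => by
            rw [norm_mul, Real.norm_eq_abs, Real.norm_eq_abs, abs_of_nonneg (chi_nonneg _ _)]
            exact (mul_le_of_le_one_left (abs_nonneg _) (chi_le_one _ _)).trans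
              (abs_real_inner_le_norm _ _))
      rw [hE, hW, ← integral_inner hWi, ← integral_add h1 (hWi.const_inner _)]
      refine setIntegral_congr_fun measurableSet_ball.compl fun z hz => ?_
      rw [mem_compl_iff, mem_ball, not_lt, dist_zero_right] at hz
      have : 2 * ε ≤ ‖y - z‖ := by linarith [norm_sub_norm_le z y, norm_sub_rev z y]
      simp only [tInt]
      rw [kTrunc_of_le hε this, real_inner_smul_right, inner_sub_right]
      ring
    · simp [tInt, hE, hzero y h]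
  obtain ⟨M, hM⟩ : ∃ M, ∀ y ∈ B, ∀ z ∈ B, ‖⟪φ y, kTrunc n ε (y - z)⟫‖ ≤ M := by
    have hcont : Continuous fun q : Sp d × Sp d => ⟪φ q.1, kTrunc n ε (q.1 - q.2)⟫ := by
      have := continuous_kTrunc (n := n) (d := d) hε
      fun_prop
    obtain ⟨M, hM⟩ := ((isCompact_closedBall (0 : Sp d) ρ).prod
      (isCompact_closedBall (0 : Sp d) ρ)).exists_bound_of_continuousOn hcont.continuousOn
    exact ⟨M, fun y hy z hz => hM (y, z) ⟨ball_subset_closedBall hy, ball_subset_closedBall hz⟩⟩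
  have hBfin : μ B < ⊤ := (hReg.fin 0 ρ).lt_top
  have hnear : ∀ y, ∫ z in B, tInt n ε ρ φ (y, z) ∂μ = ∫ z in B, ⟪φ y, kTrunc n ε (y - z)⟫ ∂μ :=
    fun y => setIntegral_congr_fun measurableSet_ball fun z hz => by
      rw [hB, mem_ball, dist_zero_right] at hz
      simp [tInt, chi_eq_one hρ0 hz.le]
  have hin : ∀ y, ∫ z, tInt n ε ρ φ (y, z) ∂μ =
      (∫ z in B, ⟪φ y, kTrunc n ε (y - z)⟫ ∂μ) + (E y + ⟪φ y, W⟫) := fun y => by
    rw [← integral_add_compl measurableSet_ball (hsec y), hnear, hfar]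
  have hI1 : IntegrableOn (fun y => ∫ z in B, ⟪φ y, kTrunc n ε (y - z)⟫ ∂μ) B μ := by
    refine Measure.integrableOn_of_bounded (M := M * μ.real B) hBfin.ne ?_
      ((ae_restrict_iff' measurableSet_ball).2 (Eventually.of_forall fun y hy =>
        norm_setIntegral_le_of_norm_le_const hBfin fun z hz => hM y hy z hz))
    have := continuous_kTrunc (n := n) (d := d) hε
    exact (Continuous.stronglyMeasurable (by fun_prop : Continuous fun q : Sp d × Sp d =>
      ⟪φ q.1, kTrunc n ε (q.1 - q.2)⟫)).integral_prod_right'.aestronglyMeasurable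
  have hI2 : Integrable E μ := by
    refine (hnorm.const_mul (kLip n * G₂ * (R / ρ))).mono' ?_ (Eventually.of_forall hEle)
    exact (Measurable.stronglyMeasurable (((continuous_chi ρ).measurable.comp measurable_snd).mul
      (by fun_prop : Measurable fun q : Sp d × Sp d =>
        ⟪φ q.1, rieszKernel n (q.1 - q.2) - rieszKernel n (0 - q.2)⟫))).integral_prod_right'
      |>.aestronglyMeasurable
  have hI3 : Integrable (fun y => ⟪φ y, W⟫) μ := hint.inner_const W
  have hw0 : ∫ y, ⟪φ y, W⟫ ∂μ = 0 := by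
    simp_rw [real_inner_comm W]
    rw [integral_inner hint, hmean, inner_zero_right]
  have hout : ∀ y, y ∉ B → φ y = 0 := fun y hy => hzero y fun h => hy (by
    rw [hB, mem_ball, dist_zero_right]; linarith)
  have hQ : tPair n μ ε ρ φ =
      (∫ y in B, ∫ z in B, ⟪φ y, kTrunc n ε (y - z)⟫ ∂μ ∂μ) + ∫ y, E y ∂μ := by
    have h1 : tPair n μ ε ρ φ = ∫ y in B, ∫ z, tInt n ε ρ φ (y, z) ∂μ ∂μ :=
      (setIntegral_eq_integral_of_forall_compl_eq_zero fun y hy => by
        simp [tInt, hout y hy]).symm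
    rw [h1]
    simp_rw [hin]
    rw [integral_add (f := fun y => ∫ z in B, ⟪φ y, kTrunc n ε (y - z)⟫ ∂μ)
      (g := fun y => E y + ⟪φ y, W⟫) hI1 (hI2.integrableOn.add hI3.integrableOn),
      integral_add hI2.integrableOn hI3.integrableOn,
      setIntegral_eq_integral_of_forall_compl_eq_zero (f := E) (fun y hy => by
        simp [hE, hout y hy]),
      setIntegral_eq_integral_of_forall_compl_eq_zero (f := fun y => ⟪φ y, W⟫) (fun y hy => by
        simp [hout y hy]), hw0, add_zero]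
  have hen := enlarge hReg hG₁ hG₂ hR (ball_subset_ball hρ) hφ hsupp hmean
  have hf := (abs_far_le hReg hG₂ measurableSet_ball hR hρ hball hc hsupp).2.2
  have hloc := loc_sub_cut hReg hG₁ hφ hρ0 hε
  have hE2 : |∫ y, E y ∂μ| ≤ kLip n * G₂ * (R / ρ) * ∫ y, ‖φ y‖ ∂μ := by
    rw [← integral_const_mul]
    exact abs_integral_le_integral_abs.trans (integral_mono hI2.abs (hnorm.const_mul _) hEle)
  rw [hen, hQ]
  rw [← hB] at hloc hf ⊢
  have := abs_add_le (2⁻¹ * loc n μ B φ - ∫ y in B, ∫ z in B, ⟪φ y, kTrunc n ε (y - z)⟫ ∂μ ∂μ)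
    (far n μ B 0 φ - ∫ y, E y ∂μ)
  have := abs_sub (far n μ B 0 φ) (∫ y, E y ∂μ)
  rw [show ∀ a b c e : ℝ, a + b - (c + e) = (a - c) + (b - e) from fun a b c e => by ring]
  linarith

end Vale.Agent.P120.Trunc
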