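import Vale.Agent.P120.Improve.Limit.Emb
import Vale.Agent.P120.Improve.Limit.Trunc

/-!
# P120: tests lifted from the plane
-/

open MeasureTheory Metric Set Filter Topology
open scoped RealInnerProductSpace ENNReal NNReal

namespace Vale.Agent.P120.Trunc

open Pairing

variable {n d : ℕ}

lemma chi_lipschitz {ρ : ℝ} (hρ : 0 < ρ) (a b : Sp d) : |chi ρ a - chi ρ b| ≤ ‖a - b‖ / ρ := by
  have h1 : ∀ s t : ℝ, |max 0 (min 1 s) - max 0 (min 1 t)| ≤ |s - t| := fun s t => by
    refine (abs_max_sub_max_le_max _ _ _ _).trans (max_le (by simp) ?_)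
    exact (abs_min_sub_min_le_max _ _ _ _).trans (max_le (by simp) le_rfl)
  refine (h1 _ _).trans ?_
  rw [show (2 - ‖a‖ / ρ) - (2 - ‖b‖ / ρ) = (‖b‖ - ‖a‖) / ρ by ring, abs_div, abs_of_pos hρ,
    norm_sub_rev a b]
  exact div_le_div_of_nonneg_right (abs_norm_sub_norm_le b a) hρ.le

/-- A field of the plane on the whole space. -/
noncomputable def lift (h : n ≤ d) (R : ℝ) (φ : Sp n → Sp n) (y : Sp d) : Sp d :=
  chi R y • tEmb (φ (tPart h y))

variable {h : n ≤ d} {R A : ℝ} {φ : Sp n → Sp n}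

lemma lift_eq_zero (hR : 0 < R) {y : Sp d} (hy : 2 * R ≤ ‖y‖) : lift h R φ y = 0 := by
  rw [lift, chi_eq_zero hR hy, zero_smul]

lemma lift_tEmb (hR : 0 < R) (hsupp : ∀ x, R ≤ dist x 0 → φ x = 0) (x : Sp n) :
    lift h R φ (tEmb (d := d) x) = tEmb (φ x) := by
  rw [lift, tPart_tEmb]
  rcases le_or_gt ‖x‖ R with hx | hx
  · rw [chi_eq_one hR (by rwa [norm_tEmb h]), one_smul]
  · rw [hsupp x (by rw [dist_zero_right]; exact hx.le), tEmb_zero, smul_zero]

lemma norm_lift_le (hA : ∀ x, ‖φ x‖ ≤ A) (y : Sp d) : ‖lift h R φ y‖ ≤ A := by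
  rw [lift, norm_smul, norm_tEmb h, Real.norm_eq_abs, abs_of_nonneg (chi_nonneg _ _)]
  exact (mul_le_of_le_one_left (norm_nonneg _) (chi_le_one _ _)).trans (hA _)

lemma lipschitz_lift (hR : 0 < R) (hA : ∀ x, ‖φ x‖ ≤ A) {L : ℝ≥0} (hφ : LipschitzWith L φ) :
    LipschitzWith (L + (A / R).toNNReal) (lift h R φ : Sp d → Sp d) := by
  have hA0 : 0 ≤ A := (norm_nonneg _).trans (hA 0)
  refine LipschitzWith.of_dist_le_mul fun y z => ?_
  rw [dist_eq_norm, dist_eq_norm, NNReal.coe_add, Real.coe_toNNReal _ (by positivity)]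
  have e : lift h R φ y - lift h R φ z =
      chi R y • tEmb (φ (tPart h y) - φ (tPart h z)) + (chi R y - chi R z) • tEmb (φ (tPart h z)) := by
    simp only [lift, tEmb_sub, smul_sub, sub_smul]; abel
  rw [e, add_mul]
  refine (norm_add_le _ _).trans (add_le_add ?_ ?_)
  · rw [norm_smul, norm_tEmb h, Real.norm_eq_abs, abs_of_nonneg (chi_nonneg _ _)]
    refine (mul_le_of_le_one_left (norm_nonneg _) (chi_le_one _ _)).trans ?_
    refine (hφ.norm_sub_le _ _).trans (mul_le_mul_of_nonneg_left ?_ L.coe_nonneg)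
    rw [← tPart_sub]; exact norm_tPart_le h _
  · rw [norm_smul, norm_tEmb h, Real.norm_eq_abs]
    exact (mul_le_mul (chi_lipschitz hR y z) (hA _) (norm_nonneg _) (by positivity)).trans_eq
      (by ring)

lemma kTrunc_tEmb (h : n ≤ d) (ε : ℝ) (x : Sp n) :
    kTrunc n ε (tEmb (d := d) x) = tEmb (kTrunc n ε x) := by
  simp only [kTrunc, norm_tEmb h, tEmb_smul]

lemma chi_tEmb (h : n ≤ d) (ρ : ℝ) (x : Sp n) : chi ρ (tEmb (d := d) x) = chi ρ x := by
  simp only [chi, norm_tEmb h]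

lemma tInt_lift {ε ρ : ℝ} (hR : 0 < R) (hsupp : ∀ x, R ≤ dist x 0 → φ x = 0) (a b : Sp n) :
    tInt n ε ρ (lift h R φ) (tEmb (d := d) a, tEmb b) = tInt n ε ρ φ (a, b) := by
  simp only [tInt, lift_tEmb hR hsupp, ← tEmb_sub, kTrunc_tEmb h, chi_tEmb h, inner_tEmb h]

lemma pair_smul (μ : Measure (Sp d)) (p : Sp d) (r s : ℝ) (ψ : Sp d → Sp d) :
    pair n μ p r (fun y => s • ψ y) = s * pair n μ p r ψ := by
  simp only [pair, ← smul_sub, real_inner_smul_left, integral_const_mul]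
  ring

/-- Ball bounds give regularity. -/
lemma reg_of_closedBall {ν : Measure (Sp n)} [IsFiniteMeasureOnCompacts ν] {a b : ℝ} (ha : 0 < a)
    (h : ∀ x r, 0 < r → a * r ^ n ≤ ν.real (closedBall x r) ∧ ν.real (closedBall x r) ≤ b * r ^ n) :
    Reg n (max 1 (max b (2 ^ n / a))) ν := by
  have fin : ∀ x r, ν (closedBall x r) ≠ ⊤ := fun x r => (isCompact_closedBall x r).measure_lt_top.ne
  refine ⟨le_max_left _ _, fun x r => ne_top_of_le_ne_top (fin x r)
    (measure_mono ball_subset_closedBall), fun x r hr => ?_, fun x _ r hr _ => ?_⟩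
  · exact (measureReal_mono ball_subset_closedBall (fin x r)).trans ((h x r hr).2.trans
      (mul_le_mul_of_nonneg_right ((le_max_left _ _).trans (le_max_right _ _)) (by positivity)))
  · have h1 := (h x (r / 2) (by positivity)).1
    have hne : ν (ball x r) ≠ ⊤ :=
      ne_top_of_le_ne_top (fin x r) (measure_mono ball_subset_closedBall)
    refine le_trans ?_ (h1.trans (measureReal_mono (closedBall_subset_ball (by linarith)) hne))
    rw [div_pow, mul_div_assoc', le_div_iff₀ (by positivity), mul_right_comm]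
    refine mul_le_mul_of_nonneg_right ?_ (by positivity)
    rw [inv_mul_le_iff₀ (lt_of_lt_of_le one_pos (le_max_left _ _)), ← div_le_iff₀ ha]
    exact (le_max_right _ _).trans (le_max_right _ _)

end Vale.Agent.P120.Trunc
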