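import Mathlib.Analysis.InnerProductSpace.PiL2
import Mathlib.Topology.MetricSpace.ProperSpace
import Vale.Agent.P120.Improve.Limit.Emb

/-!
# P120: no hole in the limit

An `n`-regular set has little mass in a narrow strip around a plane of dimension `n - 1`, so the
touching statement excludes holes once the tests are small and the support is thin.
-/

open MeasureTheory Metric Filter Topology Set
open scoped ENNReal NNReal RealInnerProductSpace

namespace Vale.Agent.P120

variable {n d : ℕ}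

/-- The inner product of the parts. -/
lemma inner_parts (h : n ≤ d) (a b : Sp d) :
    ⟪a, b⟫ = ⟪tPart h a, tPart h b⟫ + ⟪nPart n a, nPart n b⟫ := by
  have h1 : tPart h (a - b) = tPart h a - tPart h b := tPart_sub h a b
  have h2 : nPart n (a - b) = nPart n a - nPart n b := nPart_sub n a b
  have h3 := norm_sq_split h (a - b)
  rw [h1, h2, norm_sub_sq_real, norm_sub_sq_real, norm_sub_sq_real] at h3
  linarith [norm_sq_split h a, norm_sq_split h b]

/-- The mass of a strip around a hyperplane of the plane. -/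
lemma strip_le (hn : 1 ≤ n) (h : n ≤ d) {μ : Measure (Sp d)} {C₀ : ℝ} (hreg : Reg n C₀ μ)
    [IsLocallyFiniteMeasure μ] {c : Sp d} {u : Sp n} (hu : ‖u‖ = 1) {s : ℝ} (hs : 0 < s) {m : ℕ}
    (hm : 1 ≤ m)
    (hH : ∀ y ∈ μ.support ∩ ball c s, ‖nPart n (y - c)‖ ≤ 2 * (s / m) ∧
      |⟪u, tPart h (y - c)⟫| ≤ 4 * (s / m)) :
    μ.real (ball c s) ≤ 11 * 5 ^ (n - 1) * C₀ * (n + 3) ^ n / m * s ^ n := by
  classical
  obtain ⟨i0⟩ : Nonempty (Fin n) := ⟨⟨0, hn⟩⟩
  obtain ⟨b, hb⟩ := (show Orthonormal ℝ (({i0} : Set (Fin n)).domRestrict fun _ => u) from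
    ⟨fun _ => hu, fun i j hij => absurd (Subsingleton.elim i j) hij⟩).exists_orthonormalBasis_extension_of_card_eq
      (ι := Fin n) (by simp)
  have hbu : b i0 = u := hb i0 rfl
  set t := s / m with ht
  have hm0 : (0 : ℝ) < m := by exact_mod_cast hm
  have ht0 : 0 < t := by positivity
  set J : Fin n → Finset ℤ := fun i =>
    if i = i0 then Finset.Icc (-5) 5 else Finset.Icc (-(m : ℤ) - 1) (m + 1) with hJ
  set ctr : (Fin n → ℤ) → Sp d := fun j => c + tEmb (∑ i, ((j i : ℝ) * t) • b i)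
  have hcover : ball c s ∩ μ.support ⊆ ⋃ j ∈ Fintype.piFinset J, ball (ctr j) ((n + 3) * t) := by
    rintro y ⟨hy, hys⟩
    obtain ⟨hN, hT⟩ := hH y ⟨hys, hy⟩
    set w := tPart h (y - c)
    set j : Fin n → ℤ := fun i => ⌊⟪b i, w⟫ / t⌋ with hj
    have hw : ‖w‖ < s := by
      refine (norm_tPart_le h _).trans_lt ?_
      rwa [← dist_eq_norm]
    refine mem_biUnion (x := j) (Fintype.mem_piFinset.2 fun i => ?_) ?_
    · have hfl := Int.floor_le (⟪b i, w⟫ / t)
      have hlf := Int.lt_floor_add_one (⟪b i, w⟫ / t)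
      simp only [hJ, hj]
      split_ifs with hi
      · subst hi
        have h1 : |⟪b i, w⟫ / t| ≤ 4 := by
          rw [abs_div, abs_of_pos ht0, div_le_iff₀ ht0, hbu]; exact hT
        rw [abs_le] at h1
        rw [Finset.mem_Icc]
        constructor <;> refine Int.le_of_lt_add_one ?_ <;> rw [← Int.cast_lt (R := ℝ)] <;>
          push_cast <;> linarith
      · have h1 : |⟪b i, w⟫ / t| ≤ m := by
          rw [abs_div, abs_of_pos ht0, div_le_iff₀ ht0]
          refine (abs_real_inner_le_norm _ _).trans ?_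
          rw [b.orthonormal.1 i, one_mul, ht, mul_div_cancel₀ _ hm0.ne']
          exact hw.le
        rw [abs_le] at h1
        rw [Finset.mem_Icc]
        constructor <;> refine Int.le_of_lt_add_one ?_ <;> rw [← Int.cast_lt (R := ℝ)] <;>
          push_cast <;> linarith
    · rw [mem_ball, dist_eq_norm]
      have e : y - ctr j = tEmb (w - ∑ i, ((j i : ℝ) * t) • b i) + nPart n (y - c) := by
        simp only [ctr, tEmb_sub, w, tEmb_tPart]
        abel
      rw [e]
      refine lt_of_le_of_lt (norm_add_le _ _) ?_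
      rw [norm_tEmb h]
      have h2 : ‖w - ∑ i, ((j i : ℝ) * t) • b i‖ ≤ n * t := by
        conv_lhs => rw [← b.sum_repr' w, ← Finset.sum_sub_distrib]
        refine (norm_sum_le _ _).trans ((Finset.sum_le_sum (g := fun _ => t) fun i _ => ?_).trans_eq
          (by simp))
        rw [← sub_smul, norm_smul, b.orthonormal.1 i, mul_one, Real.norm_eq_abs]
        have hfl := Int.floor_le (⟪b i, w⟫ / t)
        have hlf := Int.lt_floor_add_one (⟪b i, w⟫ / t)
        rw [le_div_iff₀ ht0] at hfl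
        rw [div_lt_iff₀ ht0] at hlf
        rw [abs_le]
        constructor <;> linarith
      linarith
  have hcard : ((Fintype.piFinset J).card : ℝ) ≤ 11 * (5 * m : ℝ) ^ (n - 1) := by
    rw [Fintype.card_piFinset, ← Finset.mul_prod_erase _ _ (Finset.mem_univ i0), Nat.cast_mul,
      Nat.cast_prod]
    refine mul_le_mul (le_of_eq (by simp [hJ])) ?_ (Finset.prod_nonneg fun _ _ => Nat.cast_nonneg _)
      (by norm_num)
    refine (Finset.prod_le_prod (g := fun _ => 5 * (m : ℝ)) (fun i _ => Nat.cast_nonneg _)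
      fun i hi => ?_).trans_eq (by simp)
    simp only [hJ, if_neg (Finset.ne_of_mem_erase hi), Int.card_Icc]
    have h1 : ((m : ℤ) + 1 + 1 - (-(m : ℤ) - 1)).toNat = 2 * m + 3 := by omega
    rw [h1]
    push_cast
    have : (1 : ℝ) ≤ m := by exact_mod_cast hm
    linarith
  have hball : μ.real (ball c s) = μ.real (ball c s ∩ μ.support) := by
    simp only [measureReal_def]
    rw [measure_inter_conull Measure.measure_compl_support]
  have hC : 0 ≤ C₀ := zero_le_one.trans hreg.one_le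
  rw [hball]
  calc μ.real (ball c s ∩ μ.support)
      ≤ μ.real (⋃ j ∈ Fintype.piFinset J, ball (ctr j) ((n + 3) * t)) :=
        measureReal_mono hcover (measure_biUnion_lt_top (Finset.finite_toSet _)
          fun j _ => (hreg.fin _ _).lt_top).ne
    _ ≤ ∑ j ∈ Fintype.piFinset J, μ.real (ball (ctr j) ((n + 3) * t)) :=
        measureReal_biUnion_finset_le _ _
    _ ≤ (Fintype.piFinset J).card * (C₀ * ((n + 3) * t) ^ n) := by
        rw [← nsmul_eq_mul]
        exact Finset.sum_le_card_nsmul _ _ _ fun j _ => hreg.upper _ _ (by positivity)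
    _ ≤ 11 * (5 * m : ℝ) ^ (n - 1) * (C₀ * ((n + 3) * t) ^ n) := by gcongr
    _ = _ := by
        obtain ⟨p, rfl⟩ : ∃ p, n = p + 1 := ⟨n - 1, by omega⟩
        rw [ht, Nat.add_sub_cancel]
        simp only [mul_pow, div_pow, pow_succ]
        field_simp

/-- **No hole**: along the sequence the support comes near every point of the plane. -/
theorem Blow.noHole {C₀ : ℝ} (B : Blow n d C₀) (hn : 1 ≤ n) (_hd : n < d) (hP : PairSpec n d)
    (x : Sp n) {r : ℝ} (hr : 0 < r) :
    ∀ᶠ k in atTop, ∃ y ∈ (B.m k).support, dist y (tEmb x) < r := by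
  set P := ‖x‖ + 1 with hP'
  have hP0 : 0 < P := by positivity
  rcases le_or_gt P r with hrP | hrP
  · filter_upwards [B.point (1 / 2) one_half_pos] with k ⟨y, hy, hy1⟩
    refine ⟨y, hy, (dist_le_norm_add_norm y _).trans_lt ?_⟩
    rw [norm_tEmb B.le]
    linarith
  have hC : 0 < C₀ := one_pos.trans_le (B.reg 0).one_le
  set K := 11 * 5 ^ (n - 1) * C₀ * ((n : ℝ) + 3) ^ n
  have hK : 0 < K := by positivity
  set m : ℕ := ⌈C₀ * K⌉₊ + 1 with hm
  have hm1 : 1 ≤ m := Nat.le_add_left 1 _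
  have hm0 : (0 : ℝ) < m := by exact_mod_cast hm1
  obtain ⟨N, κ, hκ, htouch⟩ := B.touch (1 / m) (by positivity)
  set smin := r / 8 ^ N
  have hsmin : 0 < smin := by positivity
  set δ := min (r / 2) (min (smin / m) (r * smin / m / (4 * P))) with hδ'
  have hδ : 0 < δ := by positivity
  set A := ‖x‖ + 3 * P + 1
  have hA : 1 ≤ A := by linarith [norm_nonneg x]
  filter_upwards [B.point 1 one_pos, B.diam P, B.thin hA hδ,
    B.test A (2 / smin).toNNReal 1 hA one_pos,
    (by simpa using B.G_lim.eventually (gt_mem_nhds (show (0:ℝ) < κ * smin ^ n by positivity)) :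
      ∀ᶠ k in atTop, B.G k < κ * smin ^ n)] with k ⟨w, hw, hw1⟩ hdiam hthin htest hG
  have := B.lf k
  by_contra hno
  push Not at hno
  set z : Sp d := tEmb x
  have hz : ‖z‖ = ‖x‖ := norm_tEmb B.le x
  obtain ⟨c, hc, hcz⟩ := (Measure.isClosed_support (μ := B.m k)).exists_infDist_eq_dist ⟨w, hw⟩ z
  set ρ := dist z c with hρ
  have hρr : r ≤ ρ := by rw [hρ, dist_comm]; exact hno c hc
  have hρ0 : 0 < ρ := hr.trans_le hρr
  have hρP : ρ ≤ P := by
    rw [← hcz]
    refine (Metric.infDist_le_dist_of_mem hw).trans ((dist_le_norm_add_norm z w).trans ?_)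
    linarith
  have hcn : ‖c‖ ≤ ‖x‖ + P := by
    linarith [norm_le_norm_add_norm_sub' c z, (dist_eq_norm c z).symm.le.trans
      ((dist_comm c z).trans_le hρP)]
  have hdis : Disjoint (ball z ρ) (B.m k).support := by
    rw [← hcz]; exact Metric.disjoint_ball_infDist
  have hsc : ∀ j ≤ N, smin ≤ ρ / 8 ^ j ∧ ρ / 8 ^ j ≤ P := fun j hj =>
    ⟨div_le_div₀ hρ0.le hρr (by positivity) (pow_le_pow_right₀ (by norm_num) hj),
      (div_le_self hρ0.le (one_le_pow₀ (by norm_num))).trans hρP⟩
  have hb : ∀ j ≤ N, bT n (B.m k) 1 c (ρ / 8 ^ j) ≤ κ := fun j hj => by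
    obtain ⟨h1, h2⟩ := hsc j hj
    refine Real.sSup_le ?_ hκ.le
    rintro v ⟨φ, ⟨hsupp, hφ1, hlip, hmean⟩, rfl⟩
    have hφ : LipschitzWith (2 / smin).toNNReal φ := hlip.weaken (Real.toNNReal_le_toNNReal (by
      rw [Nat.cast_one, one_add_one_eq_two]
      exact div_le_div_of_nonneg_left zero_le_two hsmin h1))
    have hA' : ∀ y, A ≤ dist y 0 → φ y = 0 := fun y hy => hsupp y (by
      rw [dist_zero_right] at hy
      rw [Nat.cast_one, dist_eq_norm]
      linarith [norm_le_norm_add_norm_sub' y c])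
    have he := (hP (B.m k) C₀ (B.reg k)).2.1 c 0 (((1 : ℕ) + 1) * (ρ / 8 ^ j)) A _ φ (by positivity)
      (by linarith) hsupp hA' hφ hmean
    rw [he, div_le_iff₀ (by positivity)]
    refine (htest φ hA' hφ1 hφ hmean).trans ?_
    rw [one_mul]
    exact hG.le.trans (mul_le_mul_of_nonneg_left (pow_le_pow_left₀ hsmin.le h1 n) hκ.le)
  obtain ⟨j, hj, hstrip⟩ := htouch k z c ρ hρ0
    ((ENNReal.ofReal_le_ofReal hρP).trans hdiam) hc rfl hdis hb
  obtain ⟨h1, h2⟩ := hsc j hj
  set s := ρ / 8 ^ j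
  set e : Sp d := ρ⁻¹ • (z - c) with he
  have hden : ‖z - c‖ = ρ := (dist_eq_norm z c).symm
  have he1 : ‖e‖ = 1 := by
    rw [he, norm_smul, Real.norm_of_nonneg (by positivity), hden, inv_mul_cancel₀ hρ0.ne']
  have hδc : ‖nPart n c‖ ≤ δ := hthin c hc (by linarith)
  have hen : ‖nPart n e‖ ≤ δ / r := by
    have : nPart n e = ρ⁻¹ • (-nPart n c) := by
      ext i; by_cases hi : (i : ℕ) < n <;> simp [he, nPart, z, tEmb, hi]
    rw [this, norm_smul, norm_neg, Real.norm_of_nonneg (by positivity), inv_mul_eq_div]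
    exact div_le_div₀ hδ.le hδc hr hρr
  have hδr : δ / r ≤ 1 / 2 := by
    rw [div_le_iff₀ hr]; linarith [min_le_left (r / 2) (min (smin / m) (r * smin / m / (4 * P)))]
  have hu0 : 1 / 2 ≤ ‖tPart B.le e‖ := by linarith [norm_le_parts B.le e]
  have hu : ‖‖tPart B.le e‖⁻¹ • tPart B.le e‖ = 1 := norm_smul_inv_norm
    (norm_pos_iff.1 (lt_of_lt_of_le one_half_pos hu0))
  have hH : ∀ y ∈ (B.m k).support ∩ ball c s, ‖nPart n (y - c)‖ ≤ 2 * (s / m) ∧
      |⟪‖tPart B.le e‖⁻¹ • tPart B.le e, tPart B.le (y - c)⟫| ≤ 4 * (s / m) := fun y hy => by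
    have hyc : ‖y - c‖ < s := by rw [← dist_eq_norm]; exact hy.2
    have hyn : ‖nPart n y‖ ≤ δ :=
      hthin y hy.1 (by linarith [norm_le_norm_add_norm_sub' y c])
    have hd2 : ‖nPart n (y - c)‖ ≤ 2 * δ := by
      rw [nPart_sub]
      linarith [norm_sub_le (nPart n y) (nPart n c)]
    have hds : δ ≤ s / m := by
      refine ((min_le_right _ _).trans (min_le_left _ _)).trans ?_
      gcongr
    refine ⟨by linarith, ?_⟩
    have h3 := hstrip y hy
    rw [inner_parts B.le] at h3
    have h4 : |⟪nPart n e, nPart n (y - c)⟫| ≤ s / m := by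
      refine (abs_real_inner_le_norm _ _).trans ((mul_le_mul hen hd2 (norm_nonneg _)
        (by positivity)).trans ?_)
      have h5 : δ ≤ r * smin / m / (4 * P) := (min_le_right _ _).trans (min_le_right _ _)
      have h6 : δ ≤ P := by linarith [min_le_left (r / 2) (min (smin / m) (r * smin / m / (4 * P)))]
      rw [le_div_iff₀ (by positivity)] at h5
      rw [div_mul_eq_mul_div, div_le_iff₀ hr]
      have h7 : r * smin / m ≤ s / m * r := by
        rw [div_mul_eq_mul_div, mul_comm r]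
        gcongr
      nlinarith
    rw [real_inner_smul_left, abs_mul, abs_inv, abs_norm, inv_mul_le_iff₀ (by linarith)]
    rw [one_div, inv_mul_eq_div] at h3
    have h8 : 0 ≤ s / m := by positivity
    nlinarith [abs_le.1 h3, abs_le.1 h4, abs_le.2 (show -(2 * (s / m)) ≤
      ⟪tPart B.le e, tPart B.le (y - c)⟫ ∧ ⟪tPart B.le e, tPart B.le (y - c)⟫ ≤ 2 * (s / m) from
        ⟨by linarith [(abs_le.1 h3).1, (abs_le.1 h4).2],
          by linarith [(abs_le.1 h3).2, (abs_le.1 h4).1]⟩)]
  have hup := strip_le hn B.le (B.reg k) hu (hsmin.trans_le h1) hm1 hH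
  have hlo := (B.reg k).lower c hc s (hsmin.trans_le h1)
    ((ENNReal.ofReal_le_ofReal h2).trans hdiam)
  have hKm : K / m < C₀⁻¹ := by
    rw [div_lt_iff₀ hm0, inv_mul_eq_div, lt_div_iff₀ hC]
    have := Nat.le_ceil (C₀ * K)
    rw [hm]
    push_cast
    linarith
  have := mul_lt_mul_of_pos_right hKm (pow_pos (hsmin.trans_le h1) n)
  linarith

end Vale.Agent.P120
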