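import Vale.Agent.P120.Growth
import Vale.Agent.P120.Improve.Limit.Fields
import Vale.Agent.P120.Improve.Limit.Double
import Vale.Agent.P120.Improve.Limit.Density
import Vale.Agent.P120.Improve.Limit.Holes

/-!
# P120: the flattened measures tend to a multiple of Lebesgue measure (12a)
-/

open MeasureTheory Metric Set Filter Topology
open scoped RealInnerProductSpace ENNReal NNReal

namespace Vale.Agent.P120.Blow

open Trunc

variable {n d : ℕ} {C₀ : ℝ} (B : Blow n d C₀) {U : Ultrafilter ℕ} {ν : Measure (Sp n)}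
  [IsFiniteMeasureOnCompacts ν]
  (hν : ∀ (g : Sp n → ℝ) (A : ℝ), Continuous g → 1 ≤ A → (∀ x, A ≤ ‖x‖ → g x = 0) →
      Tendsto (fun k => B.avg k A g) U (𝓝 (∫ x, g x ∂ν)))
  (hU : (U : Filter ℕ) ≤ atTop)

include hν hU

/-- A vector field of compact support. -/
lemma weak_field {Φ : Sp d → Sp d} (hΦ : Continuous Φ) {A : ℝ} (hA : 1 ≤ A)
    (hΦA : ∀ y, A ≤ ‖y‖ → Φ y = 0) :
    Tendsto (fun k => ∫ y, Φ y ∂B.m k) U (𝓝 (∫ x, Φ (tEmb x) ∂ν)) := by
  have hout : ∀ y, y ∉ closedBall (0 : Sp d) A → Φ y = 0 := fun y hy =>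
    hΦA y (not_le.1 (mem_closedBall_zero_iff.not.1 hy)).le
  have hi : Integrable (fun x : Sp n => Φ (tEmb x)) ν :=
    (hΦ.comp (continuous_tEmb B.le)).integrable_of_hasCompactSupport
      (HasCompactSupport.intro (isCompact_closedBall 0 A) fun x hx => hΦA _ (by
        rw [norm_tEmb B.le]; exact (not_le.1 (mem_closedBall_zero_iff.not.1 hx)).le))
  have key : ∀ i : Fin d,
      Tendsto (fun k => (∫ y, Φ y ∂B.m k) i) U (𝓝 ((∫ x, Φ (tEmb x) ∂ν) i)) := by
    intro i
    have h := B.weak_ambient hν hU (F := fun y => EuclideanSpace.proj i (Φ y)) (by fun_prop) hA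
      fun y hy => by simp [hΦA y hy]
    rw [(EuclideanSpace.proj (𝕜 := ℝ) i).integral_comp_comm hi] at h
    refine h.congr fun k => ?_
    have := B.lf k
    exact (EuclideanSpace.proj (𝕜 := ℝ) i).integral_comp_comm
      (hΦ.integrable_of_hasCompactSupport (HasCompactSupport.intro (isCompact_closedBall 0 A) hout))
  have h := ((PiLp.continuous_toLp 2 (fun _ : Fin d => ℝ)).tendsto _).comp (tendsto_pi_nhds.2 key)
  simpa [Function.comp_def] using h

/-- Tests lifted from the plane, of mean zero against the measures themselves. -/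
theorem exists_tests {c C : ℝ} (hc : 0 < c)
    (hball : ∀ x r, 0 < r → c * r ^ n ≤ ν.real (closedBall x r) ∧
      ν.real (closedBall x r) ≤ C * r ^ n)
    {R : ℝ} {L : ℝ≥0} {φ : Sp n → Sp n} (hR : 0 < R) (hsupp : ∀ x, R ≤ dist x 0 → φ x = 0)
    (hφ : LipschitzWith L φ) (hmean : ∫ x, φ x ∂ν = 0) :
    ∃ (R' A₁ : ℝ) (L₁ : ℝ≥0) (Φ : ℕ → Sp d → Sp d), 2 ≤ R' ∧ 2 * R ≤ R' ∧ 0 < A₁ ∧
      (∀ k y, R' ≤ dist y 0 → Φ k y = 0) ∧
      (∀ᶠ k in (U : Filter ℕ), (∀ y, ‖Φ k y‖ ≤ A₁) ∧ LipschitzWith L₁ (Φ k) ∧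
        ∫ y, Φ k y ∂B.m k = 0) ∧
      Tendsto (fun k => pair n (B.m k) 0 R' (Φ k)) U (𝓝 0) ∧
      ∀ ε ρ : ℝ, 0 < ε → R' ≤ ρ →
        Tendsto (fun k => tPair n (B.m k) ε ρ (Φ k)) U (𝓝 (tPair n ν ε ρ φ)) := by
  -- the lifted test and the correction of its mean
  obtain ⟨A, hA⟩ : ∃ A, ∀ x, ‖φ x‖ ≤ A :=
    (HasCompactSupport.intro (isCompact_closedBall 0 R) fun x hx =>
      hsupp x (not_le.1 (mem_closedBall.not.1 hx)).le).exists_bound_of_continuous hφ.continuous
  have hA0 : 0 ≤ A := (norm_nonneg _).trans (hA 0)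
  set Φ₀ : Sp d → Sp d := lift B.le R φ with hΦ₀
  have hLip₀ : LipschitzWith (L + (A / R).toNNReal) Φ₀ := lipschitz_lift hR hA hφ
  set R' := max (2 * R) 2 with hR'
  have hR'1 : 1 ≤ R' := by linarith [le_max_right (2 * R) 2]
  have hR'0 : 0 < R' := by linarith
  have hΦ₀out : ∀ y, R' ≤ ‖y‖ → Φ₀ y = 0 := fun y hy =>
    lift_eq_zero hR ((le_max_left _ _).trans hy)
  set β : Sp d → ℝ := chi 1 with hβ
  have hβout : ∀ y, R' ≤ ‖y‖ → β y = 0 := fun y hy =>
    chi_eq_zero one_pos (by linarith [le_max_right (2 * R) 2])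
  have hβc : Continuous β := continuous_chi 1
  set Z := ∫ x, β (tEmb x) ∂ν with hZdef
  have hZ : 0 < Z := by
    have hi : Integrable (fun x : Sp n => β (tEmb x)) ν :=
      (hβc.comp (continuous_tEmb B.le)).integrable_of_hasCompactSupport
        (HasCompactSupport.intro (isCompact_closedBall 0 R') fun x hx => hβout _ (by
          rw [norm_tEmb B.le]; exact (not_le.1 (mem_closedBall_zero_iff.not.1 hx)).le))
    refine (mul_pos hc (pow_pos one_pos n)).trans_le ((hball 0 1 one_pos).1.trans ?_)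
    rw [← setIntegral_one_eq_measureReal]
    refine (setIntegral_congr_fun measurableSet_closedBall fun x hx => ?_).trans_le
      (setIntegral_le_integral hi (Eventually.of_forall fun x => chi_nonneg _ _))
    exact (chi_eq_one one_pos (by rw [norm_tEmb B.le]; exact mem_closedBall_zero_iff.1 hx)).symm
  have hlimβ : Tendsto (fun k => ∫ y, β y ∂B.m k) U (𝓝 Z) := B.weak_ambient hν hU hβc hR'1 hβout
  set v : ℕ → Sp d := fun k => (∫ y, β y ∂B.m k)⁻¹ • ∫ y, Φ₀ y ∂B.m k with hv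
  have hint0 : ∫ x, Φ₀ (tEmb x) ∂ν = 0 := by
    simp only [hΦ₀, lift_tEmb hR hsupp]
    exact ((tLin B.le).toContinuousLinearMap.integral_comp_comm
      (hφ.continuous.integrable_of_hasCompactSupport (HasCompactSupport.intro
        (isCompact_closedBall 0 R) fun x hx =>
          hsupp x (not_le.1 (mem_closedBall.not.1 hx)).le))).trans (by simp [hmean])
  have hvlim : Tendsto v U (𝓝 0) := by
    have h := (hlimβ.inv₀ hZ.ne').smul (B.weak_field hν hU hLip₀.continuous hR'1 hΦ₀out)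
    rwa [hint0, smul_zero] at h
  set Φ : ℕ → Sp d → Sp d := fun k y => Φ₀ y - β y • v k with hΦ
  set L₁ : ℝ≥0 := L + (A / R).toNNReal + 1 with hL₁
  set A₁ := A + 1 with hA₁
  have hA₁0 : 0 < A₁ := by positivity
  have hΦout : ∀ k y, R' ≤ dist y 0 → Φ k y = 0 := fun k y hy => by
    rw [dist_zero_right] at hy
    simp [hΦ, hΦ₀out y hy, hβout y hy]
  -- bounds, eventually
  have hgood : ∀ᶠ k in (U : Filter ℕ), (∀ y, ‖Φ k y‖ ≤ A₁) ∧ LipschitzWith L₁ (Φ k) ∧
      ∫ y, Φ k y ∂B.m k = 0 := by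
    filter_upwards [(tendsto_zero_iff_norm_tendsto_zero.1 hvlim).eventually (ge_mem_nhds one_pos),
      hlimβ.eventually (lt_mem_nhds hZ)] with k hk hk0
    have := B.lf k
    refine ⟨fun y => ?_, LipschitzWith.of_dist_le_mul fun y z => ?_, ?_⟩
    · refine (norm_sub_le _ _).trans (add_le_add (norm_lift_le hA y) ?_)
      rw [norm_smul, Real.norm_eq_abs, abs_of_nonneg (chi_nonneg _ _)]
      exact (mul_le_of_le_one_left (norm_nonneg _) (chi_le_one _ _)).trans hk
    · rw [dist_eq_norm, dist_eq_norm, hL₁, NNReal.coe_add, NNReal.coe_one, add_mul, one_mul]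
      have e : Φ k y - Φ k z = (Φ₀ y - Φ₀ z) - (β y - β z) • v k := by
        simp only [hΦ, sub_smul]; abel
      rw [e]
      refine (norm_sub_le _ _).trans (add_le_add (hLip₀.norm_sub_le y z) ?_)
      rw [norm_smul, Real.norm_eq_abs]
      exact (mul_le_mul (chi_lipschitz one_pos y z) hk (norm_nonneg _) (by positivity)).trans_eq
        (by ring)
    · have hi1 : Integrable Φ₀ (B.m k) := hLip₀.continuous.integrable_of_hasCompactSupport
        (HasCompactSupport.intro (isCompact_closedBall 0 R') fun y hy =>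
          hΦ₀out y (not_le.1 (mem_closedBall_zero_iff.not.1 hy)).le)
      have hi2 : Integrable β (B.m k) := hβc.integrable_of_hasCompactSupport
        (HasCompactSupport.intro (isCompact_closedBall 0 R') fun y hy =>
          hβout y (not_le.1 (mem_closedBall_zero_iff.not.1 hy)).le)
      simp only [hΦ]
      rw [integral_sub hi1 (hi2.smul_const _), integral_smul_const, hv, smul_smul,
        mul_inv_cancel₀ hk0.ne', one_smul, sub_self]
  -- the pairings tend to zero
  have hpair : Tendsto (fun k => pair n (B.m k) 0 R' (Φ k)) U (𝓝 0) := by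
    have ht := B.test R' (L₁ * A₁⁻¹.toNNReal) 1 hR'1 one_pos
    refine squeeze_zero_norm' ?_ (by simpa using (B.G_lim.mono_left hU).const_mul A₁)
    filter_upwards [hgood, ht.filter_mono hU] with k ⟨hsup, hlip, hmean'⟩ hk
    have := B.lf k
    have h := hk (fun y => A₁⁻¹ • Φ k y) (fun y hy => by simp [hΦout k y hy]) (fun y => by
        rw [norm_smul, Real.norm_of_nonneg (by positivity), inv_mul_le_iff₀ hA₁0, mul_one]
        exact hsup y)
      (LipschitzWith.of_dist_le_mul fun y z => by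
        rw [dist_eq_norm, ← smul_sub, norm_smul, Real.norm_of_nonneg (by positivity), NNReal.coe_mul,
          Real.coe_toNNReal _ (by positivity), mul_comm (L₁ : ℝ), mul_assoc]
        exact mul_le_mul_of_nonneg_left ((dist_eq_norm y z).symm ▸ hlip.norm_sub_le y z)
          (by positivity))
      (by rw [integral_smul, hmean', smul_zero])
    rw [pair_smul, abs_mul, abs_inv, abs_of_pos hA₁0, inv_mul_le_iff₀ hA₁0, one_mul] at h
    rw [Real.norm_eq_abs]
    exact h
  -- the cut integrals converge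
  have hcut : ∀ ε ρ : ℝ, 0 < ε → R' ≤ ρ →
      Tendsto (fun k => tPair n (B.m k) ε ρ (Φ k)) U (𝓝 (tPair n ν ε ρ φ)) := by
    intro ε ρ hε hρ
    have hρ0 : 0 < ρ := by linarith
    have hkc := continuous_kTrunc (n := n) (d := d) hε
    have hchi := continuous_chi (d := d) ρ
    have hz : ∀ (ψ : Sp d → Sp d), (∀ y, R' ≤ ‖y‖ → ψ y = 0) → ∀ y z, 2 * ρ ≤ ‖y‖ ∨ 2 * ρ ≤ ‖z‖ →
        tInt n ε ρ ψ (y, z) = 0 := fun ψ hψ y z h => by
      rcases h with h | h
      · simp [tInt, hψ y (by linarith)]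
      · simp [tInt, chi_eq_zero hρ0 h]
    have h1 := B.weak_double hν hU (continuous_tInt (n := n) (ρ := ρ) hε hLip₀.continuous)
      (show (1:ℝ) ≤ 2 * ρ by linarith) (hz Φ₀ hΦ₀out)
    simp only [hΦ₀, tInt_lift hR hsupp] at h1
    rw [← hΦ₀] at h1
    -- the correction
    set F₁ : Sp d × Sp d → ℝ := fun q => chi ρ q.2 * β q.1 * ‖kTrunc n ε (q.1 - q.2)‖ with hF₁
    have hF₁c : Continuous F₁ := by rw [hF₁]; fun_prop
    have hF₁A : ∀ y z, 2 * ρ ≤ ‖y‖ ∨ 2 * ρ ≤ ‖z‖ → F₁ (y, z) = 0 := fun y z h => by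
      rcases h with h | h
      · simp [hF₁, hβout y (by linarith)]
      · simp [hF₁, chi_eq_zero hρ0 h]
    have h2 := B.weak_double hν hU hF₁c (show (1:ℝ) ≤ 2 * ρ by linarith) hF₁A
    have h3 : Tendsto (fun k => tPair n (B.m k) ε ρ (Φ k) - tPair n (B.m k) ε ρ Φ₀) U (𝓝 0) := by
      refine squeeze_zero_norm (fun k => ?_)
        (by simpa using (tendsto_zero_iff_norm_tendsto_zero.1 hvlim).mul h2)
      have := B.lf k
      have hcs : HasCompactSupport F₁ := HasCompactSupport.intro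
        ((isCompact_closedBall (0 : Sp d) (2 * ρ)).prod (isCompact_closedBall (0 : Sp d) (2 * ρ)))
        fun q hq => hF₁A q.1 q.2 (by
          simp only [Set.mem_prod, mem_closedBall_zero_iff, not_and_or, not_le] at hq
          exact hq.imp le_of_lt le_of_lt)
      have hint : ∀ ψ : Sp d → Sp d, Continuous ψ → (∀ y, R' ≤ ‖y‖ → ψ y = 0) →
          Integrable (tInt n ε ρ ψ) ((B.m k).prod (B.m k)) := fun ψ hψ hψ0 =>
        (continuous_tInt hε hψ).integrable_of_hasCompactSupport (HasCompactSupport.intro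
          ((isCompact_closedBall (0 : Sp d) (2 * ρ)).prod (isCompact_closedBall (0 : Sp d) (2 * ρ)))
          fun q hq => hz ψ hψ0 q.1 q.2 (by
            simp only [Set.mem_prod, mem_closedBall_zero_iff, not_and_or, not_le] at hq
            exact hq.imp le_of_lt le_of_lt))
      have i1 := hint (Φ k) (hLip₀.continuous.sub (hβc.smul continuous_const))
        fun y hy => hΦout k y (by rwa [dist_zero_right])
      have i0 := hint Φ₀ hLip₀.continuous hΦ₀out
      have iF : Integrable F₁ ((B.m k).prod (B.m k)) := hF₁c.integrable_of_hasCompactSupport hcs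
      simp only [tPair]
      rw [← integral_prod _ i1, ← integral_prod _ i0, ← integral_prod _ iF, ← integral_sub i1 i0,
        ← integral_const_mul]
      refine norm_integral_le_of_norm_le (iF.const_mul _) (Eventually.of_forall fun q => ?_)
      have e : tInt n ε ρ (Φ k) q - tInt n ε ρ Φ₀ q =
          -(chi ρ q.2 * β q.1 * ⟪v k, kTrunc n ε (q.1 - q.2)⟫) := by
        simp only [tInt, hΦ, inner_sub_left, real_inner_smul_left]; ring
      rw [e, norm_neg, norm_mul, Real.norm_eq_abs, abs_of_nonneg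
        (mul_nonneg (chi_nonneg _ _) (chi_nonneg _ _)), hF₁]
      exact (mul_le_mul_of_nonneg_left (abs_real_inner_le_norm _ _)
        (mul_nonneg (chi_nonneg _ _) (chi_nonneg _ _))).trans_eq (by ring)
    simpa [tPair] using h3.add h1
  exact ⟨R', A₁, L₁, Φ, le_max_right _ _, le_max_left _ _, hA₁0, hΦout, hgood, hpair, hcut⟩

/-- **The limit has constant Riesz transform.** -/
theorem pair_eq_zero {c C : ℝ} (hc : 0 < c)
    (hball : ∀ x r, 0 < r → c * r ^ n ≤ ν.real (closedBall x r) ∧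
      ν.real (closedBall x r) ≤ C * r ^ n)
    {R : ℝ} {L : ℝ≥0} {φ : Sp n → Sp n} (hR : 0 < R) (hsupp : ∀ x, R ≤ dist x 0 → φ x = 0)
    (hφ : LipschitzWith L φ) (hmean : ∫ x, φ x ∂ν = 0) : pair n ν 0 R φ = 0 := by
  have hReg := reg_of_closedBall hc hball
  set Cν := max 1 (max C (2 ^ n / c))
  obtain ⟨Gν, hGν0, hGν⟩ := growth_of_reg ν Cν hReg 1 le_rfl
  have hGν₂ : ∀ (x : Sp n) (r : ℝ), 0 < r →
      IntegrableOn (fun z => (‖x - z‖ ^ (n + 1))⁻¹) (ball x r)ᶜ ν ∧
        ∫ z in (ball x r)ᶜ, (‖x - z‖ ^ (n + 1))⁻¹ ∂ν ≤ Gν / r := fun x r hr => by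
    simpa using (hGν x r hr).2
  have hGm₂ : ∀ (k : ℕ) (x : Sp d) (r : ℝ), 0 < r →
      IntegrableOn (fun z => (‖x - z‖ ^ (n + 1))⁻¹) (ball x r)ᶜ (B.m k) ∧
        ∫ z in (ball x r)ᶜ, (‖x - z‖ ^ (n + 1))⁻¹ ∂B.m k ≤ B.Cg / r := fun k x r hr => by
    simpa using B.far 1 (Or.inl rfl) k x r hr
  have hC₀ := B.C₀_pos
  have hCg : 0 ≤ B.Cg := by
    have h := (B.near 0 0 1 one_pos).2
    rw [mul_one] at h
    exact le_trans (setIntegral_nonneg measurableSet_ball fun z _ => by positivity) h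
  obtain ⟨R', A₁, L₁, Φ, hR'2, hR'R, hA₁0, hΦout, hgood, hpair, hcut⟩ :=
    B.exists_tests hν hU hc hball hR hsupp hφ hmean
  have hR'0 : 0 < R' := by linarith
  by_contra hne
  set p := |pair n ν 0 R φ| with hp
  have hp0 : 0 < p := abs_pos.2 hne
  have hint : Integrable φ ν := (Pairing.integrable_field hReg hφ.continuous hsupp).1
  set Kρ := 2 * (Pairing.kLip n * Gν * R * ∫ x, ‖φ x‖ ∂ν) +
    2 * (Pairing.kLip n * B.Cg * R' * (A₁ * (C₀ * R' ^ n))) with hKρ
  set ρ := max (2 * R') (4 * (|Kρ| + 1) / p) with hρ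
  have hρR : 2 * R' ≤ ρ := le_max_left _ _
  have hρ0 : 0 < ρ := by linarith
  set Kε := L * Gν * ν.real (ball 0 ρ) + L₁ * B.Cg * (C₀ * ρ ^ n) with hKε
  set ε := min (R / 2) (min (R' / 2) (p / (4 * (|Kε| + 1)))) with hεd
  have hε : 0 < ε := by positivity
  have hε1 : 2 * ε ≤ R := by linarith [min_le_left (R / 2) (min (R' / 2) (p / (4 * (|Kε| + 1))))]
  have hε2 : 2 * ε ≤ R' := by
    linarith [(min_le_right (R / 2) (min (R' / 2) (p / (4 * (|Kε| + 1))))).trans (min_le_left _ _)]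
  have e1 := pair_sub_tPair hReg (fun x r hr => (hGν x r hr).1) hGν₂ hφ hR hsupp hmean
    (show 2 * R ≤ ρ by linarith) hε hε1
  have e2 : |tPair n ν ε ρ φ| ≤
      L₁ * B.Cg * ε * (C₀ * ρ ^ n) + 2 * (Pairing.kLip n * B.Cg * (R' / ρ) * (A₁ * (C₀ * R' ^ n))) := by
    have hlim : Tendsto (fun k => |pair n (B.m k) 0 R' (Φ k) - tPair n (B.m k) ε ρ (Φ k)|) U
        (𝓝 |0 - tPair n ν ε ρ φ|) := (hpair.sub (hcut ε ρ hε (by linarith))).abs
    rw [zero_sub, abs_neg] at hlim
    refine le_of_tendsto hlim ?_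
    filter_upwards [hgood] with k ⟨hsup, hlip, hmean'⟩
    have := B.lf k
    refine (pair_sub_tPair (B.reg k) (fun x r hr => B.near k x r hr) (hGm₂ k) hlip hR'0 (hΦout k)
      hmean' hρR hε hε2).trans ?_
    have hn1 : ∫ y, ‖Φ k y‖ ∂B.m k ≤ A₁ * (C₀ * R' ^ n) := by
      rw [← setIntegral_eq_integral_of_forall_compl_eq_zero (s := ball (0 : Sp d) R') fun y hy => by
        rw [hΦout k y (by rw [mem_ball, not_lt] at hy; exact hy), norm_zero]]
      refine (le_abs_self _).trans ((norm_setIntegral_le_of_norm_le_const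
        (f := fun y => ‖Φ k y‖) ((B.reg k).fin 0 R').lt_top
        fun y _ => by rw [norm_norm]; exact hsup y).trans ?_)
      exact mul_le_mul_of_nonneg_left (B.mass_le k hR'0) hA₁0.le
    have hk0 := Pairing.kLip_nonneg (n := n)
    have h4 := B.mass_le k hρ0
    gcongr
  have hsum : p ≤ ε * Kε + Kρ / ρ := by
    refine (show p ≤ _ + _ from ?_).trans_eq (show (L * Gν * ε * ν.real (ball 0 ρ) +
        2 * (Pairing.kLip n * Gν * (R / ρ) * ∫ x, ‖φ x‖ ∂ν)) +
      (L₁ * B.Cg * ε * (C₀ * ρ ^ n) +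
        2 * (Pairing.kLip n * B.Cg * (R' / ρ) * (A₁ * (C₀ * R' ^ n)))) = ε * Kε + Kρ / ρ by
      rw [hKε, hKρ]; ring)
    have h := abs_sub_abs_le_abs_sub (pair n ν 0 R φ) (tPair n ν ε ρ φ)
    rw [← hp] at h
    linarith
  have h5 : ε * Kε ≤ p / 4 := by
    have h6 : ε ≤ p / (4 * (|Kε| + 1)) := (min_le_right _ _).trans (min_le_right _ _)
    rw [le_div_iff₀ (by positivity)] at h6
    nlinarith [le_abs_self Kε]
  have h7 : Kρ / ρ ≤ p / 4 := by
    have h8 : 4 * (|Kρ| + 1) / p ≤ ρ := le_max_right _ _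
    rw [div_le_iff₀ hp0] at h8
    rw [div_le_iff₀ hρ0]
    nlinarith [le_abs_self Kρ]
  linarith

end Vale.Agent.P120.Blow

namespace Vale.Agent.P120

variable {n d : ℕ}

/-- **The limit measure is a multiple of Lebesgue measure.** -/
theorem limitSpec (hn : 1 ≤ n) (hd : n < d) (hP : PairSpec n d) (hD : DensitySpec n) :
    LimitSpec n d := by
  intro C₀ B U hU
  obtain ⟨ν, hνr, hν⟩ := B.exists_weak U hU
  have hC := B.C₀_pos
  have hball : ∀ (x : Sp n) (r : ℝ), 0 < r →
      C₀⁻¹ / 4 ^ n * r ^ n ≤ ν.real (closedBall x r) ∧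
        ν.real (closedBall x r) ≤ C₀ * 3 ^ n * r ^ n := fun x r hr => by
    refine ⟨le_of_eq_of_le (by rw [div_pow]; ring) (B.weak_lower hν hU x hr
      (B.noHole hn hd hP x (by positivity))), (B.weak_upper hν hU x hr).trans_eq ?_⟩
    rw [mul_pow, mul_assoc]
  obtain ⟨f, c, C, hf, hc, hfb, hνf⟩ := exists_density (a := C₀⁻¹ / 4 ^ n) (b := C₀ * 3 ^ n)
    (by positivity) (by positivity) hball
  obtain ⟨a, ha⟩ := hD f c C hf hc hfb fun R L φ hR hsupp hφ hmean => by
    rw [← hνf] at hmean ⊢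
    exact B.pair_eq_zero hν hU (by positivity) hball hR hsupp hφ hmean
  obtain ⟨x, hx⟩ := ha.exists
  have ha0 : 0 < a := (hc.trans_le (hfb x).1).trans_eq hx
  refine ⟨a, ha0, fun g A hg hA hgA => ?_⟩
  have hva : ν = ENNReal.ofReal a • (volume : Measure (Sp n)) := by
    rw [hνf, ← withDensity_const]
    exact withDensity_congr_ae (ha.mono fun z hz => congrArg ENNReal.ofReal hz)
  have h := hν g A hg hA hgA
  rw [hva, integral_smul_measure, ENNReal.toReal_ofReal ha0.le, smul_eq_mul] at h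
  exact h

end Vale.Agent.P120
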