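import Vale.Agent.P120.Improve.Limit.Emb
import Mathlib.MeasureTheory.Integral.RieszMarkovKakutani.Real
import Mathlib.Topology.UniformSpace.HeineCantor

/-!
# P120: the limit of the flattened measures along an ultrafilter
-/

open MeasureTheory Metric Filter Topology Set
open scoped ENNReal NNReal CompactlySupported

namespace Vale.Agent.P120.Blow

variable {n d : ℕ} {C₀ : ℝ} (B : Blow n d C₀)

/-- A function on the plane against the flattened measure, in a ball. -/
noncomputable def avg (k : ℕ) (A : ℝ) (g : Sp n → ℝ) : ℝ :=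
  ∫ y in ball 0 (2 * A), g (tPart B.le y) ∂B.m k

include B in
lemma C₀_pos : 0 < C₀ := one_pos.trans_le (B.reg 0).one_le

lemma mass_le (k : ℕ) {R : ℝ} (hR : 0 < R) : (B.m k).real (ball 0 R) ≤ C₀ * R ^ n :=
  (B.reg k).upper 0 R hR

lemma ae_support (k : ℕ) : ∀ᵐ y ∂B.m k, y ∈ (B.m k).support := Measure.support_mem_ae

/-- Near the support the ball of radius `2 A` holds the strip over the ball of radius `A`. -/
lemma eventually_strip {A R : ℝ} (hA : 1 ≤ A) (hR : 1 ≤ R) :
    ∀ᶠ k in atTop, ∀ᵐ y ∂B.m k, ‖y‖ < R → ‖tPart B.le y‖ < A → ‖y‖ < 2 * A := by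
  filter_upwards [B.thin hR (δ := A) (by linarith)] with k hk
  filter_upwards [B.ae_support k] with y hy h1 h2
  linarith [norm_le_parts B.le y, hk y hy h1]

lemma avg_congr {g : Sp n → ℝ} {A A' : ℝ} (hA : 1 ≤ A) (hAA : A ≤ A')
    (hg : ∀ x, A ≤ ‖x‖ → g x = 0) : ∀ᶠ k in atTop, B.avg k A' g = B.avg k A g := by
  filter_upwards [B.eventually_strip hA (R := 2 * A') (by linarith)] with k hk
  refine setIntegral_eq_of_subset_of_ae_sdiff_eq_zero measurableSet_ball.nullMeasurableSet
    (ball_subset_ball (by linarith)) ?_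
  filter_upwards [hk] with y hy hy'
  obtain ⟨h1, h2⟩ := hy'
  rw [mem_ball_zero_iff] at h1 h2
  exact hg _ (not_lt.1 fun h => h2 (hy h1 h))

lemma integrableOn_comp (k : ℕ) (R : ℝ) {g : Sp n → ℝ} (hg : Continuous g) :
    IntegrableOn (fun y => g (tPart B.le y)) (ball 0 R) (B.m k) := by
  have := B.lf k
  exact ((hg.comp (lipschitz_tPart B.le).continuous).continuousOn.integrableOn_compact
    (isCompact_closedBall 0 R)).mono_set ball_subset_closedBall

lemma abs_avg_le {g : Sp n → ℝ} {M : ℝ} (hM : ∀ x, |g x| ≤ M) {A : ℝ} (hA : 0 < A) (k : ℕ) :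
    |B.avg k A g| ≤ M * (C₀ * (2 * A) ^ n) := by
  refine (norm_setIntegral_le_of_norm_le_const (f := fun y => g (tPart B.le y))
    ((B.reg k).fin _ _).lt_top fun y _ => hM (tPart B.le y)).trans ?_
  exact mul_le_mul_of_nonneg_left (B.mass_le k (by positivity)) ((abs_nonneg _).trans (hM 0))

lemma exists_radius (g : C_c(Sp n, ℝ)) : ∃ A, 1 ≤ A ∧ ∀ x, A ≤ ‖x‖ → g x = 0 := by
  obtain ⟨R, hR⟩ := g.hasCompactSupport.isCompact.isBounded.subset_closedBall 0
  refine ⟨max 1 (R + 1), le_max_left _ _, fun x hx => image_eq_zero_of_notMem_tsupport fun h => ?_⟩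
  have := hR h
  rw [mem_closedBall_zero_iff] at this
  linarith [le_max_right 1 (R + 1)]

lemma exists_lim (U : Ultrafilter ℕ) {g : Sp n → ℝ} {M : ℝ} (hM : ∀ x, |g x| ≤ M) {A : ℝ}
    (hA : 0 < A) : ∃ l, Tendsto (fun k => B.avg k A g) U (𝓝 l) := by
  obtain ⟨l, -, hl⟩ := (isCompact_Icc (a := -(M * (C₀ * (2 * A) ^ n)))
    (b := M * (C₀ * (2 * A) ^ n))).ultrafilter_le_nhds (U.map fun k => B.avg k A g)
    (le_principal_iff.2 (Ultrafilter.mem_map.2 (Eventually.of_forall fun k : ℕ =>
      abs_le.1 (B.abs_avg_le hM hA k))))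
  exact ⟨l, hl⟩

/-- **The limit measure.** -/
theorem exists_weak (U : Ultrafilter ℕ) (hU : (U : Filter ℕ) ≤ atTop) :
    ∃ ν : Measure (Sp n), ν.Regular ∧ ∀ (g : Sp n → ℝ) (A : ℝ), Continuous g → 1 ≤ A →
      (∀ x, A ≤ ‖x‖ → g x = 0) → Tendsto (fun k => B.avg k A g) U (𝓝 (∫ x, g x ∂ν)) := by
  have hex : ∀ g : C_c(Sp n, ℝ), ∃ l, ∀ A, 1 ≤ A → (∀ x, A ≤ ‖x‖ → g x = 0) →
      Tendsto (fun k => B.avg k A g) U (𝓝 l) := by
    intro g
    obtain ⟨M, hM⟩ := g.hasCompactSupport.exists_bound_of_continuous g.continuous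
    obtain ⟨A₀, hA₀, hg₀⟩ := exists_radius g
    obtain ⟨l, hl⟩ := B.exists_lim U hM (zero_lt_one.trans_le hA₀)
    refine ⟨l, fun A hA hg => ?_⟩
    rcases le_total A₀ A with h | h
    · exact hl.congr' (((B.avg_congr hA₀ h hg₀).filter_mono hU).mono fun k hk => hk.symm)
    · exact hl.congr' ((B.avg_congr hA h hg).filter_mono hU)
  choose l hl using hex
  let Λ : C_c(Sp n, ℝ) →ₗ[ℝ] ℝ :=
    { toFun := l
      map_add' := fun g h => by
        obtain ⟨A, hA, hgA⟩ := exists_radius g
        obtain ⟨A', hA', hhA⟩ := exists_radius h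
        have h1 := hl g (max A A') (hA.trans (le_max_left _ _))
          fun x hx => hgA x ((le_max_left _ _).trans hx)
        have h2 := hl h (max A A') (hA.trans (le_max_left _ _))
          fun x hx => hhA x ((le_max_right _ _).trans hx)
        refine tendsto_nhds_unique (hl (g + h) (max A A') (hA.trans (le_max_left _ _)) fun x hx => by
          simp [hgA x ((le_max_left _ _).trans hx), hhA x ((le_max_right _ _).trans hx)])
          ((h1.add h2).congr fun k => ?_)
        exact (integral_add (B.integrableOn_comp k _ g.continuous)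
          (B.integrableOn_comp k _ h.continuous)).symm
      map_smul' := fun c g => by
        obtain ⟨A, hA, hgA⟩ := exists_radius g
        refine tendsto_nhds_unique (hl (c • g) A hA fun x hx => by simp [hgA x hx])
          (((hl g A hA hgA).const_mul c).congr fun k => ?_)
        rw [avg, avg, ← integral_const_mul]
        rfl }
  have hΛ : ∀ g : C_c(Sp n, ℝ), 0 ≤ g → 0 ≤ Λ g := fun g hg => by
    obtain ⟨A, hA, hgA⟩ := exists_radius g
    exact ge_of_tendsto' (hl g A hA hgA) fun k => integral_nonneg fun y => hg _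
  refine ⟨RealRMK.rieszMeasure (PositiveLinearMap.mk₀ Λ hΛ), RealRMK.regular_rieszMeasure _,
    fun g A hg hA hgA => ?_⟩
  have hcs : HasCompactSupport g := HasCompactSupport.intro (isCompact_closedBall 0 A) fun x hx => by
    rw [mem_closedBall_zero_iff, not_le] at hx
    exact hgA x hx.le
  have := RealRMK.integral_rieszMeasure (PositiveLinearMap.mk₀ Λ hΛ) ⟨⟨g, hg⟩, hcs⟩
  change ∫ x, g x ∂_ = _ at this
  rw [this]
  exact hl ⟨⟨g, hg⟩, hcs⟩ A hA hgA

section

variable {U : Ultrafilter ℕ} {ν : Measure (Sp n)}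

/-- A one parameter bump: one on `closedBall x (r / 2)`, zero off `ball x r`. -/
noncomputable def bump (x : Sp n) (r : ℝ) (z : Sp n) : ℝ := max 0 (min 1 (2 - 2 * dist z x / r))

lemma bump_props (x : Sp n) {r : ℝ} (hr : 0 < r) :
    Continuous (bump x r) ∧ (∀ z, 0 ≤ bump x r z ∧ bump x r z ≤ 1) ∧
      (∀ z, dist z x ≤ r / 2 → bump x r z = 1) ∧ ∀ z, r ≤ dist z x → bump x r z = 0 := by
  refine ⟨by unfold bump; fun_prop, fun z => ⟨le_max_left _ _, max_le zero_le_one (min_le_left _ _)⟩,
    fun z hz => ?_, fun z hz => ?_⟩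
  · have : 2 * dist z x / r ≤ 1 := by rw [div_le_one hr]; linarith
    rw [bump, min_eq_left (by linarith), max_eq_right zero_le_one]
  · have : 2 ≤ 2 * dist z x / r := by rw [le_div_iff₀ hr]; linarith
    rw [bump, max_eq_left ((min_le_right _ _).trans (by linarith))]

lemma bump_out (x : Sp n) {r : ℝ} (hr : 0 < r) {z : Sp n} (hz : ‖x‖ + r + 1 ≤ ‖z‖) :
    bump x r z = 0 :=
  (bump_props x hr).2.2.2 z (by rw [dist_eq_norm]; linarith [norm_sub_norm_le z x])

variable [IsFiniteMeasureOnCompacts ν]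
  (hν : ∀ (g : Sp n → ℝ) (A : ℝ), Continuous g → 1 ≤ A → (∀ x, A ≤ ‖x‖ → g x = 0) →
      Tendsto (fun k => B.avg k A g) U (𝓝 (∫ x, g x ∂ν)))
  (hU : (U : Filter ℕ) ≤ atTop)

include hν hU

/-- The limit has growth `n`. -/
theorem weak_upper (x : Sp n) {r : ℝ} (hr : 0 < r) :
    ν.real (closedBall x r) ≤ C₀ * (3 * r) ^ n := by
  have h2 : 0 < 2 * r := by positivity
  obtain ⟨hc, hb, hone, hout⟩ := bump_props x h2
  set g := bump x (2 * r)
  set A := ‖x‖ + 2 * r + 1 with hA
  have hA1 : 1 ≤ A := by linarith [norm_nonneg x]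
  have hgA : ∀ z, A ≤ ‖z‖ → g z = 0 := fun z hz => bump_out x h2 hz
  have hgi : Integrable g ν := hc.integrable_of_hasCompactSupport
    (HasCompactSupport.intro (isCompact_closedBall x (2 * r)) fun z hz => hout z
      (not_le.1 (mem_closedBall.not.1 hz)).le)
  have h1 : ν.real (closedBall x r) ≤ ∫ z, g z ∂ν := by
    rw [← integral_indicator_one measurableSet_closedBall]
    refine integral_mono ((integrable_indicator_iff measurableSet_closedBall).2
      (integrableOn_const (isCompact_closedBall x r).measure_lt_top.ne)) hgi fun z => ?_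
    by_cases hz : z ∈ closedBall x r
    · rw [indicator_of_mem hz, hone z (by rw [mem_closedBall] at hz; linarith)]; simp
    · rw [indicator_of_notMem hz]; exact (hb z).1
  refine h1.trans (le_of_tendsto (hν g A hc hA1 hgA) ?_)
  filter_upwards [(B.thin (A := 2 * A) (by linarith) hr).filter_mono hU] with k hk
  have hsub : ∀ᵐ y ∂B.m k, y ∈ ball (0 : Sp d) (2 * A) →
      g (tPart B.le y) ≤ (ball (tEmb x) (3 * r)).indicator (fun _ => 1) y := by
    filter_upwards [B.ae_support k] with y hy hyA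
    by_cases h : y ∈ ball (tEmb x) (3 * r)
    · rw [indicator_of_mem h]; exact (hb _).2
    · rw [indicator_of_notMem h, hout _ (not_lt.1 fun hlt => h ?_)]
      rw [mem_ball]
      rw [mem_ball_zero_iff] at hyA
      calc dist y (tEmb x) ≤ dist y (tEmb (tPart B.le y)) + dist (tEmb (tPart B.le y)) (tEmb x) :=
            dist_triangle _ _ _
        _ < r + 2 * r := by
            refine add_lt_add_of_le_of_lt ?_ ?_
            · rw [dist_tEmb_tPart]; exact hk y hy hyA
            · rw [dist_eq_norm, ← tEmb_sub, norm_tEmb B.le, ← dist_eq_norm]; exact hlt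
        _ = 3 * r := by ring
  have hi : Integrable ((ball (tEmb x : Sp d) (3 * r)).indicator fun _ => (1 : ℝ)) (B.m k) :=
    (integrable_indicator_iff measurableSet_ball).2 (integrableOn_const ((B.reg k).fin _ _))
  refine (setIntegral_mono_on_ae (B.integrableOn_comp k _ hc) hi.integrableOn measurableSet_ball
    hsub).trans ((setIntegral_le_integral hi (Eventually.of_forall fun y =>
      indicator_nonneg (fun _ _ => zero_le_one) y)).trans ?_)
  rw [show ((ball (tEmb x : Sp d) (3 * r)).indicator fun _ => (1 : ℝ)) =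
    (ball (tEmb x : Sp d) (3 * r)).indicator 1 from rfl, integral_indicator_one measurableSet_ball]
  exact (B.reg k).upper _ _ (by positivity)

/-- Without holes the limit is bounded below. -/
theorem weak_lower (x : Sp n) {r : ℝ} (hr : 0 < r)
    (hhole : ∀ᶠ k in atTop, ∃ y ∈ (B.m k).support, dist y (tEmb x) < r / 8) :
    C₀⁻¹ * (r / 4) ^ n ≤ ν.real (closedBall x r) := by
  obtain ⟨hc, hb, hone, hout⟩ := bump_props x hr
  set g := bump x r
  set A := ‖x‖ + r + 1 with hA
  have hA1 : 1 ≤ A := by linarith [norm_nonneg x]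
  have hgA : ∀ z, A ≤ ‖z‖ → g z = 0 := fun z hz => bump_out x hr hz
  have h1 : ∫ z, g z ∂ν ≤ ν.real (closedBall x r) := by
    rw [← integral_indicator_one measurableSet_closedBall]
    refine integral_mono (hc.integrable_of_hasCompactSupport
      (HasCompactSupport.intro (isCompact_closedBall x r) fun z hz => hout z
        (not_le.1 (mem_closedBall.not.1 hz)).le))
      ((integrable_indicator_iff measurableSet_closedBall).2
        (integrableOn_const (isCompact_closedBall x r).measure_lt_top.ne)) fun z => ?_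
    by_cases hz : z ∈ closedBall x r
    · rw [indicator_of_mem hz]; exact (hb z).2
    · rw [indicator_of_notMem hz, hout z (not_le.1 (mem_closedBall.not.1 hz)).le]
  refine le_trans (ge_of_tendsto (hν g A hc hA1 hgA) ?_) h1
  filter_upwards [hhole.filter_mono hU, (B.diam r).filter_mono hU] with k ⟨y₀, hy₀, hd₀⟩ hdiam
  refine le_trans ((B.reg k).lower y₀ hy₀ (r / 4) (by positivity)
    ((ENNReal.ofReal_le_ofReal (by linarith)).trans hdiam)) ?_
  have hsub : ball y₀ (r / 4) ⊆ ball (0 : Sp d) (2 * A) := by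
    refine ball_subset_ball' ?_
    have := norm_tEmb (d := d) B.le x
    linarith [dist_triangle y₀ (tEmb x) 0, dist_zero_right (tEmb x : Sp d), norm_nonneg x]
  rw [← setIntegral_one_eq_measureReal]
  refine (setIntegral_mono_on (integrableOn_const ((B.reg k).fin _ _))
    ((B.integrableOn_comp k _ hc).mono_set hsub) measurableSet_ball fun y hy => ?_).trans
    (setIntegral_mono_set (B.integrableOn_comp k _ hc) (Eventually.of_forall fun y => (hb _).1)
      hsub.eventuallyLE)
  refine le_of_eq (hone _ ?_).symm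
  have h := (lipschitz_tPart (n := n) B.le).dist_le_mul y (tEmb x)
  rw [NNReal.coe_one, one_mul, tPart_tEmb] at h
  rw [mem_ball] at hy
  linarith [dist_triangle y y₀ (tEmb x)]

omit [IsFiniteMeasureOnCompacts ν] in
/-- A continuous function of compact support against the measures themselves. -/
theorem weak_ambient {F : Sp d → ℝ} (hF : Continuous F) {A : ℝ} (hA : 1 ≤ A)
    (hFA : ∀ y, A ≤ ‖y‖ → F y = 0) :
    Tendsto (fun k => ∫ y, F y ∂B.m k) U (𝓝 (∫ x, F (tEmb x) ∂ν)) := by
  have hFc : Continuous fun x : Sp n => F (tEmb x) := hF.comp (continuous_tEmb B.le)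
  have hgA : ∀ x : Sp n, A ≤ ‖x‖ → F (tEmb x) = 0 := fun x hx => hFA _ (by rwa [norm_tEmb B.le])
  have huc : UniformContinuous F := (HasCompactSupport.intro (isCompact_closedBall 0 A) fun y hy =>
    hFA y (not_le.1 (mem_closedBall_zero_iff.not.1 hy)).le).uniformContinuous_of_continuous hF
  refine (hν _ A hFc hA hgA).congr_dist ?_
  rw [Metric.tendsto_nhds]
  intro ε hε
  set M := C₀ * (2 * A) ^ n
  have hM : 0 ≤ M := mul_nonneg B.C₀_pos.le (by positivity)
  obtain ⟨δ, hδ, hδF⟩ := Metric.uniformContinuous_iff.1 huc (ε / (M + 1)) (by positivity)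
  filter_upwards [(B.thin (A := 2 * A) (by linarith) (half_pos hδ)).filter_mono hU] with k hk
  have := B.lf k
  rw [Real.dist_eq, sub_zero, abs_of_nonneg dist_nonneg, Real.dist_eq]
  have e : ∫ y, F y ∂B.m k = ∫ y in ball 0 (2 * A), F y ∂B.m k :=
    (setIntegral_eq_integral_of_forall_compl_eq_zero fun y hy => hFA y (by
      rw [mem_ball_zero_iff, not_lt] at hy; linarith)).symm
  have hFi : IntegrableOn F (ball 0 (2 * A)) (B.m k) :=
    (hF.continuousOn.integrableOn_compact (isCompact_closedBall 0 (2 * A))).mono_set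
      ball_subset_closedBall
  rw [e, avg, ← integral_sub (B.integrableOn_comp k _ hFc) hFi, ← Real.norm_eq_abs]
  refine (norm_setIntegral_le_of_norm_le_const_ae' (C := ε / (M + 1)) ((B.reg k).fin _ _).lt_top
    ?_).trans_lt ?_
  · filter_upwards [B.ae_support k] with y hy hyA
    rw [mem_ball_zero_iff] at hyA
    refine (hδF ?_).le
    rw [dist_comm, dist_tEmb_tPart]
    linarith [hk y hy hyA]
  · refine (mul_le_mul_of_nonneg_left (B.mass_le k (by positivity)) (by positivity)).trans_lt ?_
    rw [div_mul_eq_mul_div, div_lt_iff₀ (by positivity)]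
    nlinarith

end

end Vale.Agent.P120.Blow
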